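import Vale.Agent.P111.HM.Defs

/-! Walsh multipliers. -/

namespace Vale.Agent.P111.HM

open Finset Vale.Agent.P111

section A

variable {E : Type*} [NormedAddCommGroup E] [NormedSpace ℝ E] {I : Type} [Fintype I]
  [DecidableEq I]

theorem wc_add {E : Type*} [AddCommGroup E] [Module ℝ E] (S : Finset I)
    (f g : (I → ℤˣ) → E) : wc S (fun η => f η + g η) = wc S f + wc S g := by
  simp only [wc, smul_add]
  exact avg_add _ _

theorem wc_sum {E ι : Type*} [AddCommGroup E] [Module ℝ E] (S : Finset I) (s : Finset ι)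
    (f : ι → (I → ℤˣ) → E) : wc S (fun η => ∑ i ∈ s, f i η) = ∑ i ∈ s, wc S (f i) := by
  simp only [wc, Finset.smul_sum]
  exact avg_sum _ _

theorem wc_smul {E : Type*} [AddCommGroup E] [Module ℝ E] (S : Finset I) (c : ℝ)
    (f : (I → ℤˣ) → E) : wc S (fun η => c • f η) = c • wc S f := by
  simp only [wc]
  rw [← avg_smul]
  exact avg_congr fun η => smul_comm _ _ _

theorem wc_mm (m : Finset I → ℝ) (f : (I → ℤˣ) → E) (S : Finset I) :
    wc S (mm m f) = m S • wc S f := by
  have h : mm m f = fun η => ∑ T : Finset I, walsh T η • (m T • wc T f) := by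
    funext η
    simp only [mm, smul_smul]
    exact Finset.sum_congr rfl fun T _ => by rw [mul_comm]
  rw [h, wc_sum, Finset.sum_eq_single S]
  · rw [wc_walsh_smul, if_pos rfl]
  · intro T _ hT
    rw [wc_walsh_smul, if_neg (Ne.symm hT)]
  · intro hS
    exact absurd (Finset.mem_univ S) hS

theorem mm_mm (m m' : Finset I → ℝ) (f : (I → ℤˣ) → E) :
    mm m (mm m' f) = mm (fun S => m S * m' S) f := by
  funext η
  simp only [mm, wc_mm, smul_smul]
  refine Finset.sum_congr rfl fun S _ => ?_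
  congr 1
  ring

theorem mm_one (f : (I → ℤˣ) → E) : mm (fun _ => 1) f = f := by
  funext η
  simp only [mm, one_mul]
  exact sum_walsh_smul_wc f η

/-- the dual form implies the norm form -/
theorem nrm_mm_le {m : Finset I → ℝ} {B : ℝ} (hB : 0 ≤ B)
    (h : Bd (ContinuousLinearMap.id ℝ E) m B) (f : (I → ℤˣ) → E) :
    nrm (mm m f) ≤ B * nrm f := by
  set b := avg fun η => ‖mm m f η‖ ^ 2 with hb
  have hb0 : 0 ≤ b := avg_nonneg fun _ => sq_nonneg _
  choose g hg1 hg2 using fun η : I → ℤˣ => exists_norming (mm m f η)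
  have h1 := h f g
  have h2 : ∑ S : Finset I, m S * (wc S g) ((ContinuousLinearMap.id ℝ E) (wc S f)) = b := by
    have h3 := sum_wc_pairing (V := ContinuousLinearMap.id ℝ E) (mm m f) g
    simp only [ContinuousLinearMap.id_apply, wc_mm, map_smul, smul_eq_mul] at h3 ⊢
    rw [h3, hb]
    exact avg_congr fun η => hg2 η
  rw [h2, abs_of_nonneg hb0] at h1
  have h6 : nrm g ≤ √b := by
    apply Real.sqrt_le_sqrt
    exact avg_mono fun ε => by gcongr; exact hg1 ε
  change √b ≤ _
  apply sqrt_le_of_forall hb0 (mul_nonneg hB (nrm_nonneg f))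
  intro δ hδ0 _
  calc (1 - δ) * b ≤ b := by nlinarith
    _ ≤ B * (nrm f * nrm g) := h1
    _ ≤ B * (nrm f * √b) := by
        have := nrm_nonneg f
        gcongr
    _ = B * nrm f * √b := by ring

theorem bd_of_nrm {m : Finset I → ℝ} {B : ℝ}
    (h : ∀ f : (I → ℤˣ) → E, nrm (mm m f) ≤ B * nrm f) :
    Bd (ContinuousLinearMap.id ℝ E) m B := by
  intro f g
  have h3 := sum_wc_pairing (V := ContinuousLinearMap.id ℝ E) (mm m f) g
  simp only [ContinuousLinearMap.id_apply, wc_mm, map_smul, smul_eq_mul] at h3 ⊢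
  rw [h3]
  have h4 := abs_avg_pairing_le (V := ContinuousLinearMap.id ℝ E) (mm m f) g
  simp only [ContinuousLinearMap.id_apply] at h4
  refine h4.trans ?_
  have h5 : ‖ContinuousLinearMap.id ℝ E‖ ≤ 1 := ContinuousLinearMap.norm_id_le
  calc ‖ContinuousLinearMap.id ℝ E‖ * (nrm (mm m f) * nrm g) ≤
        1 * (nrm (mm m f) * nrm g) :=
        mul_le_mul_of_nonneg_right h5 (mul_nonneg (nrm_nonneg _) (nrm_nonneg _))
    _ ≤ 1 * (B * nrm f * nrm g) := by
        have := nrm_nonneg g
        gcongr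
        exact h f
    _ = _ := by ring

theorem nrm_mm_prod_le {ι : Type*} (s : Finset ι) {m : ι → Finset I → ℝ} {B : ℝ} (hB : 0 ≤ B)
    (h : ∀ l ∈ s, ∀ f : (I → ℤˣ) → E, nrm (mm (m l) f) ≤ B * nrm f) (f : (I → ℤˣ) → E) :
    nrm (mm (fun S => ∏ l ∈ s, m l S) f) ≤ B ^ #s * nrm f := by
  classical
  induction s using Finset.induction_on with
  | empty => simp only [Finset.prod_empty, mm_one, Finset.card_empty, pow_zero, one_mul, le_refl]
  | insert a s ha ih =>
    simp only [Finset.prod_insert ha]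
    rw [← mm_mm (m a) (fun S => ∏ l ∈ s, m l S) f, Finset.card_insert_of_notMem ha]
    refine (h a (Finset.mem_insert_self a s) _).trans ?_
    rw [pow_succ', mul_assoc]
    exact mul_le_mul_of_nonneg_left (ih fun l hl => h l (Finset.mem_insert_of_mem hl)) hB

theorem bd_prod {k : ℕ} {m : Fin k → Finset I → ℝ} {B : ℝ} (hB : 0 ≤ B)
    (h : ∀ l, Bd (ContinuousLinearMap.id ℝ E) (m l) B) :
    Bd (ContinuousLinearMap.id ℝ E) (fun S => ∏ l, m l S) (B ^ k) := by
  apply bd_of_nrm
  intro f
  have := nrm_mm_prod_le Finset.univ hB (fun l _ f => nrm_mm_le hB (h l) f) f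
  simpa using this

theorem nrm_comp_le {E F : Type*} [NormedAddCommGroup E] [NormedSpace ℝ E]
    [NormedAddCommGroup F] [NormedSpace ℝ F] {Ω : Type*} [Fintype Ω] {c : ℝ} (hc : 0 ≤ c)
    (f : Ω → E) (g : Ω → F) (h : ∀ ω, ‖g ω‖ ≤ c * ‖f ω‖) : nrm g ≤ c * nrm f := by
  have h1 : (avg fun ω => ‖g ω‖ ^ 2) ≤ c ^ 2 * avg fun ω => ‖f ω‖ ^ 2 := by
    rw [← avg_mul_left]
    refine avg_mono fun ω => ?_
    rw [← mul_pow]
    have := h ω
    gcongr
  calc nrm g ≤ √(c ^ 2 * avg fun ω => ‖f ω‖ ^ 2) := Real.sqrt_le_sqrt h1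
    _ = c * nrm f := by rw [Real.sqrt_mul (sq_nonneg c), Real.sqrt_sq hc]; rfl

/-- multipliers on a space that factors through `Z` -/
theorem bd_of_factor {Z : Type*} [NormedAddCommGroup Z] [NormedSpace ℝ Z] {κ : Type} (s : Finset κ)
    (e : κ → Z →L[ℝ] E) (c : κ → E →L[ℝ] Z) (B β : ℝ) (hB : 0 ≤ B) (he : ∀ x, ‖e x‖ ≤ B)
    (hc : ∀ x, ‖c x‖ ≤ 1) (hid : ∀ y, ∑ x ∈ s, e x (c x y) = y) (hβ : 0 ≤ β)
    {m : Finset I → ℝ} (h : Bd (ContinuousLinearMap.id ℝ Z) m β) :
    Bd (ContinuousLinearMap.id ℝ E) m (#s * B * β) := by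
  intro f g
  have h1 : ∑ S : Finset I, m S * (wc S g) ((ContinuousLinearMap.id ℝ E) (wc S f)) =
      ∑ x ∈ s, ∑ S : Finset I, m S * (wc S fun η => (g η).comp (e x))
        ((ContinuousLinearMap.id ℝ Z) (wc S fun η => c x (f η))) := by
    rw [Finset.sum_comm]
    refine Finset.sum_congr rfl fun S _ => ?_
    rw [← Finset.mul_sum]
    congr 1
    simp only [ContinuousLinearMap.id_apply]
    conv_lhs => rw [← hid (wc S f)]
    rw [map_sum]
    refine Finset.sum_congr rfl fun x _ => ?_
    rw [wc_apply, wc_apply, ← map_wc (c x) S f]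
    rfl
  rw [h1]
  refine (Finset.abs_sum_le_sum_abs _ _).trans ?_
  have hf0 := nrm_nonneg f
  have hg0 := nrm_nonneg g
  have h2 : ∀ x ∈ s, |∑ S : Finset I, m S * (wc S fun η => (g η).comp (e x))
      ((ContinuousLinearMap.id ℝ Z) (wc S fun η => c x (f η)))| ≤ B * β * (nrm f * nrm g) := by
    intro x _
    refine (h _ _).trans ?_
    have h3 : nrm (fun η => c x (f η)) ≤ 1 * nrm f :=
      nrm_comp_le zero_le_one f _ fun η => ((c x).le_opNorm (f η)).trans
        (mul_le_mul_of_nonneg_right (hc x) (norm_nonneg _))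
    have h4 : nrm (fun η => (g η).comp (e x)) ≤ B * nrm g := by
      refine nrm_comp_le hB g _ fun η => ?_
      refine (ContinuousLinearMap.opNorm_comp_le _ _).trans ?_
      rw [mul_comm]
      exact mul_le_mul_of_nonneg_right (he x) (norm_nonneg _)
    rw [one_mul] at h3
    calc β * (nrm (fun η => c x (f η)) * nrm fun η => (g η).comp (e x)) ≤
          β * (nrm f * (B * nrm g)) :=
          mul_le_mul_of_nonneg_left (mul_le_mul h3 h4 (nrm_nonneg _) hf0) hβ
      _ = _ := by ring
  refine (Finset.sum_le_sum h2).trans ?_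
  rw [Finset.sum_const, nsmul_eq_mul]
  apply le_of_eq
  ring

theorem levelBd_real : LevelBd 1 ℝ := by
  intro I _ _ J k _
  rw [one_pow]
  intro f g
  set a : Finset I → ℝ := fun S => if #(S ∩ J) = k then 1 else 0 with ha
  have ha1 : ∀ S, |a S| ≤ 1 := by
    intro S
    simp only [ha]
    split_ifs <;> simp
  -- Parseval
  have pars : ∀ u : (I → ℤˣ) → ℝ, ∑ S : Finset I, wc S u ^ 2 = nrm u ^ 2 := by
    intro u
    have h := sum_wc_pairing (V := ContinuousLinearMap.id ℝ ℝ) u
      (fun η => u η • ContinuousLinearMap.id ℝ ℝ)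
    simp only [ContinuousLinearMap.id_apply] at h
    rw [nrm_sq]
    calc ∑ S : Finset I, wc S u ^ 2 = ∑ S : Finset I,
          (wc S fun η => u η • ContinuousLinearMap.id ℝ ℝ) (wc S u) := by
            refine Finset.sum_congr rfl fun S _ => ?_
            rw [wc_apply]
            simp only [_root_.smul_apply, ContinuousLinearMap.id_apply, smul_eq_mul]
            have : (fun ω : I → ℤˣ => walsh S ω * (u ω * wc S u)) =
                fun ω => (walsh S ω * u ω) * wc S u := by
              funext ω; ring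
            rw [this, avg_mul_right, sq]
            rfl
      _ = _ := by
            rw [h]
            refine avg_congr fun η => ?_
            simp [sq]
  set v : (I → ℤˣ) → ℝ := fun η => g η 1 with hv
  have hgv : ∀ S (t : ℝ), (wc S g) t = wc S v * t := by
    intro S t
    rw [wc_apply]
    simp only [wc, smul_eq_mul, hv]
    rw [← avg_mul_right]
    refine avg_congr fun η => ?_
    have : g η t = g η 1 * t := by
      have h := (g η).map_smul t (1 : ℝ)
      simp only [smul_eq_mul, mul_one] at h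
      rw [h, mul_comm]
    rw [this]
    ring
  have hvn : nrm v ≤ nrm g := by
    have := nrm_comp_le (c := 1) zero_le_one g v fun η => by
      rw [one_mul]
      calc ‖g η 1‖ ≤ ‖g η‖ * ‖(1:ℝ)‖ := (g η).le_opNorm _
        _ = _ := by simp
    simpa using this
  calc |∑ S : Finset I, a S * (wc S g) ((ContinuousLinearMap.id ℝ ℝ) (wc S f))|
      ≤ ∑ S : Finset I, |a S * (wc S g) ((ContinuousLinearMap.id ℝ ℝ) (wc S f))| :=
        Finset.abs_sum_le_sum_abs _ _
    _ ≤ ∑ S : Finset I, |wc S v| * |wc S f| := by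
        refine Finset.sum_le_sum fun S _ => ?_
        rw [abs_mul, ContinuousLinearMap.id_apply, hgv, abs_mul]
        calc |a S| * (|wc S v| * |wc S f|) ≤ 1 * (|wc S v| * |wc S f|) :=
              mul_le_mul_of_nonneg_right (ha1 S) (by positivity)
          _ = _ := one_mul _
    _ ≤ √(∑ S : Finset I, |wc S v| ^ 2) * √(∑ S : Finset I, |wc S f| ^ 2) := by
        rw [← Real.sqrt_mul (Finset.sum_nonneg fun l _ => sq_nonneg _)]
        exact Real.le_sqrt_of_sq_le (Finset.sum_mul_sq_le_sq_mul_sq _ _ _)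
    _ = nrm v * nrm f := by
        simp only [sq_abs]
        rw [pars, pars, Real.sqrt_sq (nrm_nonneg _), Real.sqrt_sq (nrm_nonneg _)]
    _ ≤ 1 * (nrm f * nrm g) := by
        rw [one_mul, mul_comm]
        exact mul_le_mul_of_nonneg_left hvn (nrm_nonneg _)

/-- The block version of `K`-convexity. -/
theorem nrm_mm_tau_le {Z : Type*} [NormedAddCommGroup Z] [NormedSpace ℝ Z] {K : ℝ}
    (hK : 0 ≤ K) (h : KConvexWith K Z) (T : Finset I) (f : (I → ℤˣ) → Z) :
    nrm (mm (fun S => tau #(S ∩ T)) f) ≤ K * nrm f := by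
  classical
  set n := Fintype.card {x // x ∈ T} with hn
  let e : Fin n ≃ {x // x ∈ T} := (Fintype.equivFin _).symm
  let ext : (Fin n → ℤˣ) → (I → ℤˣ) := fun ξ i => if hi : i ∈ T then ξ (e.symm ⟨i, hi⟩) else 1
  let tr : Finset I → Finset (Fin n) := fun S => Finset.univ.filter fun j => (e j : I) ∈ S
  have hcard : ∀ S, #(tr S) = #(S ∩ T) := by
    intro S
    refine Finset.card_bij (fun j _ => (e j : I)) ?_ ?_ ?_
    · intro j hj
      simp only [tr, Finset.mem_filter, Finset.mem_univ, true_and] at hj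
      exact Finset.mem_inter.mpr ⟨hj, (e j).2⟩
    · intro j _ j' _ hjj
      exact e.injective (Subtype.ext hjj)
    · intro i hi
      obtain ⟨hi1, hi2⟩ := Finset.mem_inter.mp hi
      refine ⟨e.symm ⟨i, hi2⟩, ?_, by simp⟩
      simp [tr, hi1]
  have hwalsh : ∀ S ξ, walsh S (ext ξ) = walsh (tr S) ξ := by
    intro S ξ
    have h1 : walsh S (ext ξ) = ∏ i ∈ S ∩ T, sg (ext ξ i) := by
      rw [walsh]
      symm
      refine Finset.prod_subset Finset.inter_subset_left fun i hi hi' => ?_
      have : i ∉ T := fun hT => hi' (Finset.mem_inter.mpr ⟨hi, hT⟩)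
      simp [ext, this]
    rw [h1, walsh]
    symm
    refine Finset.prod_bij (fun j _ => (e j : I)) ?_ ?_ ?_ ?_
    · intro j hj
      simp only [tr, Finset.mem_filter, Finset.mem_univ, true_and] at hj
      exact Finset.mem_inter.mpr ⟨hj, (e j).2⟩
    · intro j _ j' _ hjj
      exact e.injective (Subtype.ext hjj)
    · intro i hi
      obtain ⟨hi1, hi2⟩ := Finset.mem_inter.mp hi
      refine ⟨e.symm ⟨i, hi2⟩, ?_, by simp⟩
      simp [tr, hi1]
    · intro j _
      simp [ext]
  have hrad : ∀ (η : I → ℤˣ) (ξ : Fin n → ℤˣ),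
      rad (fun ξ' => f (η * ext ξ')) ξ = mm (fun S => tau #(S ∩ T)) f (η * ext ξ) := by
    intro η ξ
    have h1 : ∀ j : Fin n, (avg fun ξ' : Fin n → ℤˣ => sg (ξ' j) • f (η * ext ξ')) =
        ∑ S : Finset I, (walsh S η * if {j} = tr S then 1 else 0) • wc S f := by
      intro j
      have h2 : ∀ ξ' : Fin n → ℤˣ, sg (ξ' j) • f (η * ext ξ') =
          ∑ S : Finset I, (walsh {j} ξ' * walsh (tr S) ξ') • (walsh S η • wc S f) := by
        intro ξ'
        conv_lhs => rw [← sum_walsh_smul_wc f (η * ext ξ')]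
        rw [Finset.smul_sum]
        refine Finset.sum_congr rfl fun S _ => ?_
        rw [walsh_mul, hwalsh, walsh_singleton, smul_smul, smul_smul]
        congr 1
        ring
      rw [avg_congr h2, avg_sum]
      refine Finset.sum_congr rfl fun S _ => ?_
      have h3 : (avg fun ξ' : Fin n → ℤˣ => (walsh {j} ξ' * walsh (tr S) ξ') •
          (walsh S η • wc S f)) = (avg fun ξ' : Fin n → ℤˣ =>
            (walsh {j} ξ' * walsh (tr S) ξ')) • (walsh S η • wc S f) := by
        simp only [avg, smul_eq_mul, ← Finset.sum_smul]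
        rw [smul_smul]
      rw [h3, avg_walsh_mul_walsh, smul_smul, mul_comm]
    simp only [rad, h1]
    simp only [Finset.smul_sum, smul_smul]
    rw [Finset.sum_comm]
    simp only [← Finset.sum_smul, mm]
    refine Finset.sum_congr rfl fun S _ => ?_
    congr 1
    rw [walsh_mul, hwalsh, ← hcard]
    by_cases h4 : #(tr S) = 1
    · obtain ⟨j, hj⟩ := Finset.card_eq_one.mp h4
      rw [h4, tau_one, hj, Finset.sum_eq_single j]
      · rw [if_pos rfl, walsh_singleton]
        ring
      · intro j' _ hj'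
        rw [if_neg, mul_zero, mul_zero]
        intro h5
        exact hj' (Finset.singleton_injective h5)
      · intro h5
        exact absurd (Finset.mem_univ j) h5
    · rw [tau_of_ne h4, zero_mul, Finset.sum_eq_zero]
      intro j _
      rw [if_neg, mul_zero, mul_zero]
      intro h5
      rw [← h5] at h4
      exact h4 (Finset.card_singleton j)
  -- average over translations
  have hinv : ∀ F : (I → ℤˣ) → Z, (avg fun η => ‖F η‖ ^ 2) =
      avg fun η => avg fun ξ : Fin n → ℤˣ => ‖F (η * ext ξ)‖ ^ 2 := by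
    intro F
    rw [avg_comm]
    have h1 : ∀ ξ : Fin n → ℤˣ, (avg fun η : I → ℤˣ => ‖F (η * ext ξ)‖ ^ 2) =
        avg fun η => ‖F η‖ ^ 2 := by
      intro ξ
      exact avg_comp_equiv (Equiv.mulRight (ext ξ)) (fun η => ‖F η‖ ^ 2)
    rw [avg_congr h1, avg_const]
  have hmain : (avg fun η => ‖mm (fun S => tau #(S ∩ T)) f η‖ ^ 2) ≤
      K ^ 2 * avg fun η => ‖f η‖ ^ 2 := by
    rw [hinv, hinv f, ← avg_mul_left]
    refine avg_mono fun η => ?_
    have h1 := h n fun ξ' => f (η * ext ξ')
    rw [avg_congr fun ξ => by rw [← hrad η ξ]]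
    rw [← Real.sqrt_eq_rpow, ← Real.sqrt_eq_rpow] at h1
    have h2 : (avg fun ε => ‖rad (fun ξ' => f (η * ext ξ')) ε‖ ^ 2) ≤
        (K * √(avg fun ε => ‖f (η * ext ε)‖ ^ 2)) ^ 2 :=
      le_sq_of_sqrt_le (avg_nonneg fun _ => sq_nonneg _) h1
    rwa [mul_pow, Real.sq_sqrt (avg_nonneg fun _ => sq_nonneg _)] at h2
  calc nrm (mm (fun S => tau #(S ∩ T)) f) ≤ √(K ^ 2 * avg fun η => ‖f η‖ ^ 2) :=
        Real.sqrt_le_sqrt hmain
    _ = K * nrm f := by rw [Real.sqrt_mul (sq_nonneg K), Real.sqrt_sq hK]; rfl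

theorem levelBd_of_kconvex {Z : Type*} [NormedAddCommGroup Z] [NormedSpace ℝ Z] {K : ℝ}
    (hK : 1 ≤ K) (h : KConvexWith K Z) : LevelBd (Real.exp 1 * K) Z := by
  intro I _ _ J k hk
  rw [mul_pow]
  have h1 := bd_card_eq_of_prod (V := ContinuousLinearMap.id ℝ Z) hk (B := K ^ k) J (fun _ => 1)
    (by
      intro c
      have h2 : Bd (ContinuousLinearMap.id ℝ Z)
          (fun S => ∏ l : Fin k, tau #(S ∩ (J.filter fun x => c x = l))) (K ^ k) :=
        bd_prod (by linarith) fun l => bd_of_nrm fun f =>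
          nrm_mm_tau_le (by linarith) h _ f
      refine h2.congr ?_
      intro S
      rw [mul_one]
      refine Finset.prod_congr rfl fun l _ => ?_
      congr 2
      ext x
      simp only [Finset.mem_filter, Finset.mem_inter]
      tauto) (by positivity)
  exact h1.congr fun S => by rw [mul_one]

end A

end Vale.Agent.P111.HM
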