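import Vale.Agent.P111.HM.Defs

/-!
Uniform constants: every space with cotype `q` constant at most `C` satisfies the merging
inequality `ML A (1/2 - 1/q)` with `A` depending on `q` and `C` only.
-/

open MeasureTheory ProbabilityTheory

namespace Vale.Agent.P111.HM

open Finset Vale.Agent.P111 Vale.Agent.P111.H1

section

variable {Y : Type*} [NormedAddCommGroup Y] [NormedSpace ℝ Y]

/-- The `ℓ₂` consequence of cotype, with the same constant. -/
theorem cotypeWith_l2 {q C : ℝ} (hq2 : 2 ≤ q) (_hC0 : 0 ≤ C) (h : CotypeWith q C Y)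
    (Λ : Type) [Fintype Λ] [DecidableEq Λ] (y : Λ → Y) :
      ∑ l, ‖y l‖ ^ 2 ≤ (C * (Fintype.card Λ : ℝ) ^ (1 / 2 - 1 / q)) ^ 2 *
        avg fun σ : Λ → ℤˣ => ‖∑ l, sg (σ l) • y l‖ ^ 2 := by
  have h1 : (∑ l, ‖y l‖ ^ q) ^ (1 / q) ≤
      C * (avg fun σ : Λ → ℤˣ => ‖∑ l, sg (σ l) • y l‖ ^ 2) ^ (1 / 2 : ℝ) := by
    let e := Fintype.equivFin Λ
    have h1 := h (Fintype.card Λ) (fun i => y (e.symm i))
    have h2 : avg (fun σ : Λ → ℤˣ => ‖∑ l, sg (σ l) • y l‖ ^ 2) =
        avg (fun σ : Fin (Fintype.card Λ) → ℤˣ => ‖∑ l, sg (σ l) • y (e.symm l)‖ ^ 2) := by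
      rw [← avg_equiv (Equiv.arrowCongr e (Equiv.refl ℤˣ))]
      refine avg_congr fun σ => ?_
      congr 2
      rw [← Equiv.sum_comp e]
      refine Finset.sum_congr rfl fun j _ => ?_
      simp
    have h3 : ∑ l, ‖y l‖ ^ q = ∑ i, ‖y (e.symm i)‖ ^ q :=
      (Equiv.sum_comp e.symm (fun l => ‖y l‖ ^ q)).symm
    rw [h2, h3]
    exact h1
  set S := avg fun σ : Λ → ℤˣ => ‖∑ l, sg (σ l) • y l‖ ^ 2 with hS
  have hS0 : 0 ≤ S := avg_nonneg fun _ => by positivity
  -- power mean
  have hq0 : 0 < q := by linarith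
  set T := ∑ l, ‖y l‖ ^ q with hT
  have hT0 : 0 ≤ T := Finset.sum_nonneg fun l _ => by positivity
  have h2 : (∑ l, ‖y l‖ ^ 2) ≤ ((Fintype.card Λ : ℝ) ^ (1 / 2 - 1 / q)) ^ 2 * (T ^ (1 / q)) ^ 2 := by
    have hp : 1 ≤ q / 2 := by linarith
    have h3 := Real.rpow_sum_le_const_mul_sum_rpow_of_nonneg (s := (Finset.univ : Finset Λ))
      (f := fun l => ‖y l‖ ^ 2) hp (fun l _ => by positivity)
    have h4 : ∀ l, (‖y l‖ ^ 2) ^ (q / 2) = ‖y l‖ ^ q := by
      intro l
      rw [← Real.rpow_natCast, ← Real.rpow_mul (norm_nonneg _)]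
      congr 1
      push_cast
      ring
    simp_rw [h4] at h3
    rw [Finset.card_univ] at h3
    have h5 : (∑ l, ‖y l‖ ^ 2) = ((∑ l, ‖y l‖ ^ 2) ^ (q / 2)) ^ (2 / q) := by
      rw [← Real.rpow_mul (by positivity)]
      have : q / 2 * (2 / q) = 1 := by field_simp
      rw [this, Real.rpow_one]
    rw [h5]
    calc ((∑ l, ‖y l‖ ^ 2) ^ (q / 2)) ^ (2 / q)
        ≤ ((Fintype.card Λ : ℝ) ^ (q / 2 - 1) * T) ^ (2 / q) :=
          Real.rpow_le_rpow (by positivity) h3 (by positivity)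
      _ = ((Fintype.card Λ : ℝ) ^ (q / 2 - 1)) ^ (2 / q) * T ^ (2 / q) := by
          rw [Real.mul_rpow (by positivity) hT0]
      _ = _ := by
          congr 1
          · rw [← Real.rpow_mul (by positivity), ← Real.rpow_natCast _ 2,
              ← Real.rpow_mul (by positivity)]
            congr 1
            push_cast
            field_simp
          · rw [← Real.rpow_natCast _ 2, ← Real.rpow_mul hT0]
            congr 1
            push_cast
            field_simp
  have h6 : (T ^ (1 / q)) ^ 2 ≤ C ^ 2 * S := by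
    calc (T ^ (1 / q)) ^ 2 ≤ (C * S ^ (1 / 2 : ℝ)) ^ 2 := by gcongr
      _ = C ^ 2 * S := by
        rw [mul_pow, ← Real.sqrt_eq_rpow, Real.sq_sqrt hS0]
  calc _ ≤ _ := h2
    _ ≤ ((Fintype.card Λ : ℝ) ^ (1 / 2 - 1 / q)) ^ 2 * (C ^ 2 * S) := by gcongr
    _ = _ := by ring

/-- Gaussian sums are dominated by random sign sums, with the constant a function of the
constant in the `ℓ₂` form of cotype. -/
theorem gsq_le_rsq_of (q C : ℝ) (hq2 : 2 ≤ q)
    (hC : ∀ (Λ : Type) [Fintype Λ] [DecidableEq Λ] (y : Λ → Y),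
      ∑ l, ‖y l‖ ^ 2 ≤ (C * (Fintype.card Λ : ℝ) ^ (1 / 2 - 1 / q)) ^ 2 *
        avg fun σ : Λ → ℤˣ => ‖∑ l, sg (σ l) • y l‖ ^ 2)
    (ι : Type) [Fintype ι] [DecidableEq ι] (y : ι → Y) :
    gsq y ≤ 4 * (C ^ 2 * (2 * (2 * Real.exp ((q * Real.log 4) ^ 2 / 2))) ^ (2 / q)) * rsq y := by
  have hq0 : 0 < q := by linarith
  set lam : ℝ := q * Real.log 4 with hlam
  have hlam0 : 0 ≤ lam := by positivity
  set M : ℝ := 2 * Real.exp (lam ^ 2 / 2) with hM
  have hM1 : 1 ≤ M := by
    have : 1 ≤ Real.exp (lam ^ 2 / 2) := Real.one_le_exp (by positivity)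
    linarith
  set c : ℝ := C ^ 2 * (2 * M) ^ (2 / q) with hc
  have hc0 : 0 ≤ c := by positivity
  have hy0 : 0 ≤ rsq y := rsq_nonneg _
  -- each layer
  have hlayer : ∀ k : ℕ, Integrable (fun g : ι → ℝ => sel y (pick {x : ℝ | (k : ℝ) < |x|} g)) (gam ι) ∧
      ∫ g, sel y (pick {x : ℝ | (k : ℝ) < |x|} g) ∂(gam ι) ≤ c * (1 / 16) ^ k * rsq y := by
    intro k
    have hm : MeasurableSet {x : ℝ | (k : ℝ) < |x|} :=
      measurableSet_lt measurable_const (by fun_prop)
    have h1 := integral_pick (ι := ι) (gaussianReal 0 1) _ hm (sel y)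
    refine ⟨h1.1, ?_⟩
    unfold gam
    rw [h1.2]
    have h2 := gauss_tail lam hlam0 k
    have h3 := layer_le C q hq2 hC M hM1 (Real.exp (lam * k)) (Real.exp_pos _)
      ((gaussianReal 0 1).real {x : ℝ | (k : ℝ) < |x|}) measureReal_nonneg
      measureReal_le_one (by
        refine h2.trans (le_of_eq ?_)
        rw [hM, neg_mul, Real.exp_neg]
        rfl) y
    refine h3.trans (le_of_eq ?_)
    congr 1
    rw [hc, Real.div_rpow (by positivity) (Real.exp_pos _).le, mul_div_assoc']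
    have : Real.exp (lam * k) ^ (2 / q) = 16 ^ k := by
      rw [← Real.exp_mul]
      have e1 : lam * k * (2 / q) = Real.log 4 * ((2 * k : ℕ) : ℝ) := by
        rw [hlam]; push_cast; field_simp
      rw [e1, mul_comm, ← Real.log_pow, Real.exp_log (by positivity), pow_mul]
      norm_num
    rw [this, one_div, inv_pow, div_eq_mul_inv]
  -- truncated integrals
  have htrunc : ∀ K : ℕ, ∫ g, rsq (fun i => min |g i| (K : ℝ) • y i) ∂(gam ι) ≤ 4 * c * rsq y := by
    intro K
    have hint : Integrable (fun g : ι → ℝ => 2 * ∑ k ∈ Finset.range K,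
        2 ^ k * sel y (pick {x : ℝ | (k : ℝ) < |x|} g)) (gam ι) := by
      refine Integrable.const_mul ?_ _
      exact integrable_finsetSum _ fun k _ => ((hlayer k).1).const_mul _
    have h1 : ∫ g, rsq (fun i => min |g i| (K : ℝ) • y i) ∂(gam ι) ≤
        ∫ g, 2 * ∑ k ∈ Finset.range K, 2 ^ k * sel y (pick {x : ℝ | (k : ℝ) < |x|} g) ∂(gam ι) := by
      refine integral_mono_of_nonneg (Filter.Eventually.of_forall fun g => rsq_nonneg _) hint
        (Filter.Eventually.of_forall fun g => rsq_layers K g y)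
    refine h1.trans ?_
    rw [integral_const_mul, integral_finsetSum _ fun k _ => ((hlayer k).1).const_mul _]
    simp_rw [integral_const_mul]
    have h2 : ∑ k ∈ Finset.range K, 2 ^ k * ∫ g, sel y (pick {x : ℝ | (k : ℝ) < |x|} g) ∂(gam ι) ≤
        ∑ k ∈ Finset.range K, (1 / 8 : ℝ) ^ k * (c * rsq y) := by
      refine Finset.sum_le_sum fun k _ => ?_
      calc 2 ^ k * ∫ g, sel y (pick {x : ℝ | (k : ℝ) < |x|} g) ∂(gam ι)
          ≤ 2 ^ k * (c * (1 / 16) ^ k * rsq y) := by
            gcongr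
            exact (hlayer k).2
        _ = (2 ^ k * (1 / 16 : ℝ) ^ k) * (c * rsq y) := by ring
        _ = _ := by rw [← mul_pow]; norm_num
    have h3 : ∑ k ∈ Finset.range K, ((1 / 8 : ℝ) ^ k) ≤ 2 := by
      rw [geom_sum_eq (by norm_num : (1 / 8 : ℝ) ≠ 1) K]
      have h0 : 0 ≤ (1 / 8 : ℝ) ^ K := by positivity
      rw [div_le_iff_of_neg (by norm_num)]
      linarith
    rw [← Finset.sum_mul] at h2
    calc _ ≤ 2 * ((∑ k ∈ Finset.range K, ((1 / 8 : ℝ) ^ k)) * (c * rsq y)) := by gcongr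
      _ ≤ 2 * (2 * (c * rsq y)) := by gcongr
      _ = _ := by ring
  -- pass to the limit
  have hlim : Filter.Tendsto (fun K : ℕ => ∫ g, rsq (fun i => min |g i| (K : ℝ) • y i) ∂(gam ι))
      Filter.atTop (nhds (∫ g, rsq (fun i => |g i| • y i) ∂(gam ι))) := by
    refine tendsto_integral_of_dominated_convergence (fun g => rsq (fun i => g i • y i)) ?_
      (integrable_rsq_g y) ?_ ?_
    · intro K
      refine Continuous.aestronglyMeasurable ?_
      unfold rsq avg
      have hc1 : ∀ δ : Cube ι, Continuous fun g : ι → ℝ =>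
          ∑ i, sg (δ i) • (min |g i| (K : ℝ) • y i) := fun δ =>
        continuous_finsetSum _ fun i _ =>
          (((continuous_apply i).abs.min continuous_const).smul continuous_const).const_smul _
      have hc2 : Continuous fun g : ι → ℝ =>
          ∑ δ : Cube ι, ‖∑ i, sg (δ i) • (min |g i| (K : ℝ) • y i)‖ ^ 2 :=
        continuous_finsetSum _ fun δ _ => (hc1 δ).norm.pow 2
      exact Continuous.smul (continuous_const (y := (Fintype.card (Cube ι) : ℝ)⁻¹)) hc2
    · intro K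
      refine Filter.Eventually.of_forall fun g => ?_
      rw [Real.norm_of_nonneg (rsq_nonneg _)]
      have h1 := rsq_contract (fun i => if |g i| ≤ K then (1 : ℝ) else K / |g i|) (fun i => by
        split_ifs with h
        · simp
        · push Not at h
          have hg : 0 < |g i| := lt_of_le_of_lt (Nat.cast_nonneg K) h
          rw [abs_of_nonneg (by positivity), div_le_one hg]
          exact h.le) (fun i => |g i| • y i)
      have h2 : rsq (fun i => |g i| • y i) = rsq (fun i => g i • y i) := by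
        have hs : ∀ t : ℝ, ∃ u : ℤˣ, sg u * t = |t| := by
          intro t
          rcases le_or_gt 0 t with h | h
          · exact ⟨1, by rw [sg_one, one_mul, abs_of_nonneg h]⟩
          · exact ⟨-1, by rw [sg_neg, sg_one, neg_one_mul, abs_of_neg h]⟩
        choose u hu using hs
        rw [← rsq_sign (fun i => u (g i)) (fun i => g i • y i)]
        congr 1
        funext i
        rw [smul_smul, hu]
      rw [← h2]
      refine le_trans (le_of_eq ?_) h1
      congr 1
      funext i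
      rw [smul_smul]
      congr 1
      split_ifs with h
      · rw [min_eq_left h, one_mul]
      · push Not at h
        have hg : 0 < |g i| := lt_of_le_of_lt (Nat.cast_nonneg K) h
        rw [min_eq_right h.le]
        field_simp
    · refine Filter.Eventually.of_forall fun g => ?_
      refine tendsto_const_nhds.congr' ?_
      obtain ⟨K0, hK0⟩ := exists_nat_ge (∑ i, |g i|)
      filter_upwards [Filter.eventually_ge_atTop K0] with K hK
      congr 1
      funext i
      rw [min_eq_left]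
      calc |g i| ≤ ∑ i, |g i| := Finset.single_le_sum (f := fun i => |g i|)
            (fun i _ => abs_nonneg _) (Finset.mem_univ i)
        _ ≤ K0 := hK0
        _ ≤ K := by exact_mod_cast hK
  have hfin := le_of_tendsto' hlim htrunc
  have e : gsq y = ∫ g, rsq (fun i => |g i| • y i) ∂(gam ι) := by
    rw [gsq_eq_rsq]
    congr 1
    funext g
    have hs : ∀ t : ℝ, ∃ u : ℤˣ, sg u * t = |t| := by
      intro t
      rcases le_or_gt 0 t with h | h
      · exact ⟨1, by rw [sg_one, one_mul, abs_of_nonneg h]⟩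
      · exact ⟨-1, by rw [sg_neg, sg_one, neg_one_mul, abs_of_neg h]⟩
    choose u hu using hs
    rw [← rsq_sign (fun i => u (g i)) (fun i => g i • y i)]
    congr 1
    funext i
    rw [smul_smul, hu]
  rw [e]
  exact hfin

end

section

variable {Y : Type*} [NormedAddCommGroup Y] [NormedSpace ℝ Y]

/-- The merging inequality from the `ℓ₂` form of cotype and the Gaussian comparison. -/
theorem merge_core (C q G : ℝ)
    (hC : ∀ (Λ : Type) [Fintype Λ] [DecidableEq Λ] (y : Λ → Y),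
      ∑ l, ‖y l‖ ^ 2 ≤ (C * (Fintype.card Λ : ℝ) ^ (1 / 2 - 1 / q)) ^ 2 *
        avg fun σ : Λ → ℤˣ => ‖∑ l, sg (σ l) • y l‖ ^ 2)
    (hGr : ∀ (ι : Type) [Fintype ι] [DecidableEq ι] (y : ι → Y), gsq y ≤ G * rsq y)
    (L : ℕ) (y : Finset (Fin L) → Y) :
    avg (fun lam : Fin L → ℤˣ => ‖∑ t, sg (ch lam t) • y t‖ ^ 2) ≤
      (C * ((2 : ℝ) ^ L) ^ (1 / 2 - 1 / q)) ^ 2 * ((Real.pi / 2) * G) * rsq y := by
  set N : ℝ := (2 : ℝ) ^ L with hN
  have hN0 : 0 < N := by positivity
  have hcard : (Fintype.card (Fin L → ℤˣ) : ℝ) = N := by simp [hN]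
  set z : (Fin L → ℤˣ) → Y := fun lam => ∑ t, sg (ch lam t) • y t with hz
  have s1 : ∑ lam : Fin L → ℤˣ, ‖z lam‖ ^ 2 ≤ (C * N ^ (1 / 2 - 1 / q)) ^ 2 * rsq z := by
    have := hC (Fin L → ℤˣ) z
    rwa [hcard] at this
  have s2 : gsq z = N * gsq y := by
    have t1 := gsq_rot (ι := Finset (Fin L)) (κ := Fin L → ℤˣ)
      (fun t lam => (√N)⁻¹ * sg (ch lam t)) (by simp)
      (by
        intro t t'
        have e1 : ∀ lam : Fin L → ℤˣ, (√N)⁻¹ * sg (ch lam t) * ((√N)⁻¹ * sg (ch lam t')) =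
            N⁻¹ * (sg (ch lam t) * sg (ch lam t')) := by
          intro lam
          calc (√N)⁻¹ * sg (ch lam t) * ((√N)⁻¹ * sg (ch lam t'))
              = ((√N)⁻¹ * (√N)⁻¹) * (sg (ch lam t) * sg (ch lam t')) := by ring
            _ = _ := by rw [← mul_inv, Real.mul_self_sqrt hN0.le]
        rw [Finset.sum_congr rfl fun lam _ => e1 lam, ← Finset.mul_sum, ch_orth]
        by_cases h2 : t = t'
        · rw [if_pos h2, if_pos h2]
          exact inv_mul_cancel₀ hN0.ne'
        · rw [if_neg h2, if_neg h2, mul_zero]) z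
    rw [← t1]
    have e2 : (fun t : Finset (Fin L) => ∑ lam : Fin L → ℤˣ,
        ((√N)⁻¹ * sg (ch lam t)) • z lam) = fun t => √N • y t := by
      funext t
      have e3 : ∀ lam : Fin L → ℤˣ, ((√N)⁻¹ * sg (ch lam t)) • z lam =
          ∑ t', ((√N)⁻¹ * (sg (ch lam t) * sg (ch lam t'))) • y t' := by
        intro lam
        simp only [hz, Finset.smul_sum, smul_smul]
        refine Finset.sum_congr rfl fun t' _ => ?_
        congr 1
        ring
      rw [Finset.sum_congr rfl fun lam _ => e3 lam, Finset.sum_comm, Finset.sum_eq_single t]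
      · rw [← Finset.sum_smul, ← Finset.mul_sum, ch_orth, if_pos rfl, ← hN]
        congr 1
        rw [inv_mul_eq_div, Real.div_sqrt]
      · intro t' _ ht
        rw [← Finset.sum_smul, ← Finset.mul_sum, ch_orth, if_neg (Ne.symm ht)]
        simp
      · intro h; exact absurd (Finset.mem_univ _) h
    rw [e2, gsq_smul, Real.sq_sqrt hN0.le]
  have s3 := rsq_le_gsq z
  have s4 := hGr (Finset (Fin L)) y
  have hpi : 0 < Real.pi := Real.pi_pos
  unfold avg
  rw [smul_eq_mul, hcard]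
  calc N⁻¹ * ∑ lam : Fin L → ℤˣ, ‖z lam‖ ^ 2
      ≤ N⁻¹ * ((C * N ^ (1 / 2 - 1 / q)) ^ 2 * ((Real.pi / 2) * (N * (G * rsq y)))) := by
        refine mul_le_mul_of_nonneg_left (s1.trans ?_) (by positivity)
        refine mul_le_mul_of_nonneg_left (s3.trans ?_) (by positivity)
        refine mul_le_mul_of_nonneg_left ?_ (by positivity)
        rw [s2]
        exact mul_le_mul_of_nonneg_left s4 hN0.le
    _ = _ := by field_simp

end

universe v

/-- FILE B: the merging inequality, with a constant depending on `q` and the cotype constant. -/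
theorem ml_of_cotype (q C : ℝ) (hq : 2 ≤ q) (hC : 0 ≤ C) : ∃ A : ℝ, 1 ≤ A ∧
    ∀ (Y : Type v) [NormedAddCommGroup Y] [NormedSpace ℝ Y], CotypeWith q C Y →
      ML A (1 / 2 - 1 / q) Y := by
  set G : ℝ := 4 * (C ^ 2 * (2 * (2 * Real.exp ((q * Real.log 4) ^ 2 / 2))) ^ (2 / q)) with hG
  have hG0 : 0 ≤ G := by positivity
  have hpi : 0 < Real.pi := Real.pi_pos
  refine ⟨max 1 (C * √((Real.pi / 2) * G)), le_max_left _ _, ?_⟩
  intro Y _ _ hY L y
  have hl2 : ∀ (Λ : Type) [Fintype Λ] [DecidableEq Λ] (y : Λ → Y),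
      ∑ l, ‖y l‖ ^ 2 ≤ (C * (Fintype.card Λ : ℝ) ^ (1 / 2 - 1 / q)) ^ 2 *
        avg fun σ : Λ → ℤˣ => ‖∑ l, sg (σ l) • y l‖ ^ 2 := fun Λ _ _ y =>
    cotypeWith_l2 hq hC hY Λ y
  have h1 := merge_core C q G hl2 (fun ι _ _ y => gsq_le_rsq_of q C hq hl2 ι y) L y
  refine h1.trans ?_
  have h0 : 0 ≤ rsq y := rsq_nonneg _
  refine mul_le_mul_of_nonneg_right ?_ h0
  have h2 : (C * √((Real.pi / 2) * G)) ^ 2 = C ^ 2 * ((Real.pi / 2) * G) := by
    rw [mul_pow, Real.sq_sqrt (by positivity)]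
  have h3 : (C * √((Real.pi / 2) * G)) ^ 2 ≤ (max 1 (C * √((Real.pi / 2) * G))) ^ 2 :=
    pow_le_pow_left₀ (by positivity) (le_max_right _ _) 2
  calc (C * ((2 : ℝ) ^ L) ^ (1 / 2 - 1 / q)) ^ 2 * ((Real.pi / 2) * G)
      = (((2 : ℝ) ^ L) ^ (1 / 2 - 1 / q)) ^ 2 * (C ^ 2 * ((Real.pi / 2) * G)) := by ring
    _ ≤ (((2 : ℝ) ^ L) ^ (1 / 2 - 1 / q)) ^ 2 * (max 1 (C * √((Real.pi / 2) * G))) ^ 2 := by
        rw [← h2]
        exact mul_le_mul_of_nonneg_left h3 (by positivity)
    _ = _ := by ring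

end Vale.Agent.P111.HM
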