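import Vale.Agent.P111.HM.K

/-! The theorems on translation and modulation invariant norms, with arbitrary real constants. -/

namespace Vale.Agent.P111.HM

open Finset Vale.Agent.P111

section

variable {X : Type*} [NormedAddCommGroup X] [NormedSpace ℝ X]

theorem cotypeWith_max {q C : ℝ} (h : CotypeWith q C X) : CotypeWith q (max C 0) X := by
  intro n y
  refine (h n y).trans ?_
  have h0 : 0 ≤ (avg fun ε : Fin n → ℤˣ => ‖∑ i, sg (ε i) • y i‖ ^ 2) ^ (1 / 2 : ℝ) :=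
    Real.rpow_nonneg (avg_nonneg fun _ => by positivity) _
  exact mul_le_mul_of_nonneg_right (le_max_left _ _) h0

theorem kConvexWith_max {K : ℝ} (h : KConvexWith K X) : KConvexWith (max K 1) X := by
  intro n f
  refine (h n f).trans ?_
  have h0 : 0 ≤ (avg fun ε : Fin n → ℤˣ => ‖f ε‖ ^ 2) ^ (1 / 2 : ℝ) :=
    Real.rpow_nonneg (avg_nonneg fun _ => by positivity) _
  exact mul_le_mul_of_nonneg_right (le_max_left _ _) h0

theorem Cls.max_one {Z : Type*} [NormedAddCommGroup Z] [NormedSpace ℝ Z] {B : ℝ} {I : Type}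
    [Fintype I] [DecidableEq I] {J : ((I → ℤˣ) → Z) →ₗ[ℝ] X} (h : Cls B J) :
    Cls (max B 1) J :=
  ⟨h.trans, h.modul, h.lower, fun z => (h.upper z).trans
    (mul_le_mul_of_nonneg_right (le_max_left _ _) (norm_nonneg _))⟩

end

universe v w

/-- Theorem 1: the sum of the first level coefficients. -/
theorem final_one (q C K B : ℝ) (hq : 2 ≤ q) : ∃ L : ℝ, 1 ≤ L ∧
    ∀ (Z : Type v) [NormedAddCommGroup Z] [NormedSpace ℝ Z] (X : Type w)
      [NormedAddCommGroup X] [NormedSpace ℝ X], KConvexWith K Z → CotypeWith q C X →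
      ∀ (I : Type) [Fintype I] [DecidableEq I] (J : ((I → ℤˣ) → Z) →ₗ[ℝ] X), Cls B J →
      ∀ (θ : I → ℤˣ) (u : (I → ℤˣ) → Z), ‖∑ i, sg (θ i) • wc {i} u‖ ≤ L * ‖J u‖ := by
  have he : 1 ≤ Real.exp 1 := Real.one_le_exp (by norm_num)
  obtain ⟨L, hL1, hL⟩ := signed_main.{v, w} q (max C 0) (max B 1) (Real.exp 1 * max K 1) hq
    (le_max_right _ _) (le_max_right _ _)
    (one_le_mul_of_one_le_of_one_le he (le_max_right _ _))
  exact ⟨L, hL1, fun Z _ _ X _ _ hZ hX I _ _ J hJ θ u =>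
    hL Z X (levelBd_of_kconvex (le_max_right _ _) (kConvexWith_max hZ)) (cotypeWith_max hX) I J
      hJ.max_one θ u⟩

/-- Theorem 2: constant functions are large. -/
theorem final_two (q r C C' K B κ : ℝ) (hq : 2 ≤ q) (hr : 2 ≤ r) : ∃ L : ℝ,
    ∀ (Z : Type v) [NormedAddCommGroup Z] [NormedSpace ℝ Z] (X : Type w)
      [NormedAddCommGroup X] [NormedSpace ℝ X], KConvexWith K Z → CotypeWith q C X →
      CotypeWith r C' (X →L[ℝ] ℝ) →
      ∀ (I : Type) [Fintype I] [DecidableEq I] (J : ((I → ℤˣ) → Z) →ₗ[ℝ] X)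
        (P : X →ₗ[ℝ] ((I → ℤˣ) → Z)), Cls B J → (∀ u, P (J u) = u) →
        (∀ x, ‖J (P x)‖ ≤ κ * ‖x‖) →
        ∀ z : Z, (Fintype.card I : ℝ) ^ (1 / r) * ‖z‖ ≤ L * ‖J (fun _ => z)‖ := by
  obtain ⟨L, hL1, hL⟩ := final_one.{v, w} q C K B hq
  refine ⟨max C' 0 * (L * max κ 0), ?_⟩
  intro Z _ _ X _ _ hZ hX hX' I _ _ J P hJ hPJ hJP z
  exact card_le_vec hr (le_max_right _ _) (by linarith) (le_max_right _ _) hJ
    (hL Z X hZ hX I J hJ) (cotypeWith_max hX') P hPJ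
    (fun x => (hJP x).trans (mul_le_mul_of_nonneg_right (le_max_left _ _) (norm_nonneg _))) z

/-- Theorem 3: exponential separation from the trivial bounds. -/
theorem final_three (q r C C' : ℝ) (hq : 2 ≤ q) (hr : 2 ≤ r) : ∃ h : ℕ, 1 ≤ h ∧
    ∀ (X : Type w) [NormedAddCommGroup X] [NormedSpace ℝ X], CotypeWith q C X →
      CotypeWith r C' (X →L[ℝ] ℝ) →
      ∀ (I : Type) [Fintype I] [DecidableEq I] (J : ((I → ℤˣ) → ℝ) ≃ₗ[ℝ] X),
        Inv J.toLinearMap →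
        2 ^ (Fintype.card I / h) * ‖J (dl (1:ℝ))‖ ≤ ‖J (fun _ => (1:ℝ))‖ ∧
        2 ^ (Fintype.card I / h) * ‖J (fun _ => (1:ℝ))‖ ≤
          2 ^ Fintype.card I * ‖J (dl (1:ℝ))‖ := by
  obtain ⟨h, hh1, hh⟩ := separation.{w} q r (max C 0) (max C' 0) hq hr (le_max_right _ _)
    (le_max_right _ _)
  refine ⟨h, hh1, ?_⟩
  intro X _ _ hX hX' I _ _ J hJ
  exact hh X (cotypeWith_max hX) (cotypeWith_max hX') I J.toLinearMap J.symm.toLinearMap hJ
    (fun u => J.symm_apply_apply u) (fun x => by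
      have : J.toLinearMap (J.symm.toLinearMap x) = x := J.apply_symm_apply x
      rw [this])

end Vale.Agent.P111.HM
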