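import Vale.Agent.P111.HM.StDefs
import Vale.Agent.P111.HM.Final
import Vale.Agent.P111.H273.System

/-! The results in terms of the definitions of `HM/StDefs.lean`. -/

namespace Vale.Agent.P111.HN

open Finset Vale.Agent.P111

universe v w

theorem HeisInv.inv {X : Type*} [NormedAddCommGroup X] [NormedSpace ℝ X] {I : Type} [Fintype I]
    [DecidableEq I] {Z : Type*} [NormedAddCommGroup Z] [NormedSpace ℝ Z]
    {J : ((I → ℤˣ) → Z) →ₗ[ℝ] X} (h : HeisInv J) : HM.Inv J :=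
  ⟨h.trans, h.modul⟩

theorem Heis.cls {X : Type*} [NormedAddCommGroup X] [NormedSpace ℝ X] {I : Type} [Fintype I]
    [DecidableEq I] {Z : Type*} [NormedAddCommGroup Z] [NormedSpace ℝ Z] {B : ℝ}
    {J : ((I → ℤˣ) → Z) →ₗ[ℝ] X} (h : Heis B J) : HM.Cls B J :=
  ⟨h.trans, h.modul, h.lower, h.upper⟩

theorem part_one (q C K B : ℝ) (hq : 2 ≤ q) : ∃ L : ℝ, 1 ≤ L ∧
    ∀ (Z : Type v) [NormedAddCommGroup Z] [NormedSpace ℝ Z] (X : Type w)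
      [NormedAddCommGroup X] [NormedSpace ℝ X], KConvexWith K Z → CotypeWith q C X →
      ∀ (I : Type) [Fintype I] [DecidableEq I] (J : ((I → ℤˣ) → Z) →ₗ[ℝ] X), Heis B J →
      ∀ (θ : I → ℤˣ) (u : (I → ℤˣ) → Z), ‖∑ i, sg (θ i) • coef {i} u‖ ≤ L * ‖J u‖ := by
  obtain ⟨L, hL1, hL⟩ := HM.final_one.{v, w} q C K B hq
  exact ⟨L, hL1, fun Z _ _ X _ _ hZ hX I _ _ J hJ θ u => hL Z X hZ hX I J hJ.cls θ u⟩

theorem part_two (q C : ℝ) (hq : 2 ≤ q) : ∃ L : ℝ, 1 ≤ L ∧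
    ∀ (X : Type w) [NormedAddCommGroup X] [NormedSpace ℝ X], CotypeWith q C X →
      ∀ (I : Type) [Fintype I] [DecidableEq I] (a : (I → ℤˣ) → X) (θ : I → ℤˣ)
        (u : (I → ℤˣ) → ℝ),
        (∑ i, sg (θ i) * coef {i} u) ^ 2 * (avg fun x => ‖a x‖ ^ 2) ≤
          L ^ 2 * avg fun g : I → ℤˣ => avg fun S : Finset I =>
            ‖∑ x, (walsh S x * u x) • a (g * x)‖ ^ 2 := by
  obtain ⟨L, hL1, hL⟩ := HM.system_scalar.{w} q (max C 0) hq (le_max_right _ _)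
  exact ⟨L, hL1, fun X _ _ hX I _ _ a θ u => hL X (HM.cotypeWith_max hX) I a θ u⟩

theorem part_three (q r C C' K B κ : ℝ) (hq : 2 ≤ q) (hr : 2 ≤ r) : ∃ L : ℝ,
    ∀ (Z : Type v) [NormedAddCommGroup Z] [NormedSpace ℝ Z] (X : Type w)
      [NormedAddCommGroup X] [NormedSpace ℝ X], KConvexWith K Z → CotypeWith q C X →
      CotypeWith r C' (X →L[ℝ] ℝ) →
      ∀ (I : Type) [Fintype I] [DecidableEq I] (J : ((I → ℤˣ) → Z) →ₗ[ℝ] X)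
        (P : X →ₗ[ℝ] ((I → ℤˣ) → Z)), Heis B J → (∀ u, P (J u) = u) →
        (∀ x, ‖J (P x)‖ ≤ κ * ‖x‖) →
        ∀ z : Z, (Fintype.card I : ℝ) ^ (1 / r) * ‖z‖ ≤ L * ‖J (fun _ => z)‖ := by
  obtain ⟨L, hL⟩ := HM.final_two.{v, w} q r C C' K B κ hq hr
  exact ⟨L, fun Z _ _ X _ _ hZ hX hX' I _ _ J P hJ hPJ hJP z =>
    hL Z X hZ hX hX' I J P hJ.cls hPJ hJP z⟩

theorem part_four (q r C C' : ℝ) (hq : 2 ≤ q) (hr : 2 ≤ r) : ∃ h : ℕ, 1 ≤ h ∧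
    ∀ (X : Type w) [NormedAddCommGroup X] [NormedSpace ℝ X], CotypeWith q C X →
      CotypeWith r C' (X →L[ℝ] ℝ) →
      ∀ (I : Type) [Fintype I] [DecidableEq I] (J : ((I → ℤˣ) → ℝ) ≃ₗ[ℝ] X),
        HeisInv J.toLinearMap →
        2 ^ (Fintype.card I / h) * ‖J (pm (1:ℝ))‖ ≤ ‖J (fun _ => (1:ℝ))‖ ∧
        2 ^ (Fintype.card I / h) * ‖J (fun _ => (1:ℝ))‖ ≤
          2 ^ Fintype.card I * ‖J (pm (1:ℝ))‖ := by
  obtain ⟨h, hh1, hh⟩ := HM.final_three.{w} q r C C' hq hr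
  exact ⟨h, hh1, fun X _ _ hX hX' I _ _ J hJ => hh X hX hX' I J hJ.inv⟩

end Vale.Agent.P111.HN
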