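import Vale.Agent.P111.HM.Defs

/-! The class `Cls`: subgroups and closure under substitutions. -/

set_option linter.unusedSectionVars false

namespace Vale.Agent.P111.HM

open Finset Vale.Agent.P111

section C

variable {Z X : Type*} [NormedAddCommGroup Z] [NormedSpace ℝ Z] [NormedAddCommGroup X]
  [NormedSpace ℝ X] {I : Type} [Fintype I] [DecidableEq I] {B : ℝ}
  {J : ((I → ℤˣ) → Z) →ₗ[ℝ] X}

theorem walsh_eq_one_or (S : Finset I) (η : I → ℤˣ) : walsh S η = 1 ∨ walsh S η = -1 := by
  have h := walsh_mul_self S η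
  exact mul_self_eq_one_iff.mp h

/-- the Walsh coefficients of the indicator of a subgroup are nonnegative -/
theorem wc_indicator_nonneg (H : Subgroup (I → ℤˣ)) [DecidablePred (· ∈ H)] (S : Finset I) :
    0 ≤ wc S (fun η : I → ℤˣ => if η ∈ H then (1:ℝ) else 0) := by
  by_cases h : ∀ x ∈ H, walsh S x = 1
  · apply avg_nonneg
    intro ω
    rw [smul_eq_mul]
    by_cases h1 : ω ∈ H
    · simp [h ω h1, h1]
    · simp [h1]
  · push Not at h
    obtain ⟨x, hx, hx1⟩ := h
    have hx2 : walsh S x = -1 := (walsh_eq_one_or S x).resolve_left hx1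
    have h1 := wc_translate S (fun η : I → ℤˣ => if η ∈ H then (1:ℝ) else 0) x
    have h2 : (fun ω : I → ℤˣ => if x * ω ∈ H then (1:ℝ) else 0) =
        fun ω => if ω ∈ H then (1:ℝ) else 0 := by
      funext ω
      have : x * ω ∈ H ↔ ω ∈ H := Subgroup.mul_mem_cancel_left H hx
      simp [this]
    rw [h2, hx2, smul_eq_mul] at h1
    linarith

/-- multiplication by the indicator of a subgroup is a contraction -/
theorem Cls.indicator (hJ : Cls B J) (H : Subgroup (I → ℤˣ)) [DecidablePred (· ∈ H)]
    (u : (I → ℤˣ) → Z) : ‖J (fun η => if η ∈ H then u η else 0)‖ ≤ ‖J u‖ := by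
  set ind : (I → ℤˣ) → ℝ := fun η => if η ∈ H then (1:ℝ) else 0 with hind
  have h1 : (fun η : I → ℤˣ => if η ∈ H then u η else 0) =
      ∑ S : Finset I, wc S ind • fun η => walsh S η • u η := by
    funext η
    simp only [Finset.sum_apply, Pi.smul_apply, smul_smul]
    rw [← Finset.sum_smul]
    have h2 := sum_walsh_smul_wc ind η
    have h3 : ∑ S : Finset I, wc S ind * walsh S η = ind η := by
      rw [← h2]
      apply Finset.sum_congr rfl
      intro S _
      rw [smul_eq_mul, mul_comm]
    rw [h3, hind]
    simp only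
    split_ifs <;> simp
  rw [h1, map_sum]
  have h4 : ∑ S : Finset I, wc S ind = 1 := by
    have h2 := sum_walsh_smul_wc ind 1
    simp only [walsh_one, one_smul] at h2
    rw [h2, hind]
    simp [one_mem H]
  calc ‖∑ S : Finset I, J (wc S ind • fun η => walsh S η • u η)‖
      ≤ ∑ S : Finset I, ‖J (wc S ind • fun η => walsh S η • u η)‖ := norm_sum_le _ _
    _ ≤ ∑ S : Finset I, wc S ind * ‖J u‖ := by
        apply Finset.sum_le_sum
        intro S _
        rw [map_smul, norm_smul, Real.norm_of_nonneg (wc_indicator_nonneg H S)]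
        exact mul_le_mul_of_nonneg_left (hJ.modul S u) (wc_indicator_nonneg H S)
    _ = ‖J u‖ := by rw [← Finset.sum_mul, h4, one_mul]

theorem Cls.eval (hJ : Cls B J) (x : I → ℤˣ) (u : (I → ℤˣ) → Z) : ‖u x‖ ≤ ‖J u‖ := by
  classical
  have h1 := hJ.indicator (⊥ : Subgroup (I → ℤˣ)) (fun η => u (x * η))
  have h2 : (fun η : I → ℤˣ => if η ∈ (⊥ : Subgroup (I → ℤˣ)) then u (x * η) else 0) =
      dl (u x) := by
    funext η
    simp only [Subgroup.mem_bot, dl]
    split_ifs with h
    · rw [h, mul_one]
    · rfl
  rw [h2] at h1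
  exact (hJ.lower (u x)).trans (h1.trans (hJ.trans x u))

/-- restriction to a subgroup -/
noncomputable def restr (Z : Type*) [NormedAddCommGroup Z] [NormedSpace ℝ Z]
    (H : Subgroup (I → ℤˣ)) [DecidablePred (· ∈ H)] :
    ((I → ℤˣ) → Z) →ₗ[ℝ] ((I → ℤˣ) → Z) where
  toFun h := fun η => if η ∈ H then h η else 0
  map_add' h h' := by
    funext η
    by_cases hη : η ∈ H <;> simp [hη]
  map_smul' a h := by
    funext η
    by_cases hη : η ∈ H <;> simp [hη]

theorem restr_apply (H : Subgroup (I → ℤˣ)) [DecidablePred (· ∈ H)] (h : (I → ℤˣ) → Z)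
    (η : I → ℤˣ) : restr Z H h η = if η ∈ H then h η else 0 := rfl

theorem restr_translate (H : Subgroup (I → ℤˣ)) [DecidablePred (· ∈ H)] (h : (I → ℤˣ) → Z)
    (x : I → ℤˣ) (hx : x ∈ H) :
    restr Z H (fun η => h (x * η)) = fun η => restr Z H h (x * η) := by
  funext η
  simp only [restr_apply]
  have : x * η ∈ H ↔ η ∈ H := Subgroup.mul_mem_cancel_left H hx
  simp [this]

/-- the norm of a restriction, from below -/
theorem Cls.le_restr (hJ : Cls B J) (H : Subgroup (I → ℤˣ)) [DecidablePred (· ∈ H)]
    (h : (I → ℤˣ) → Z) (x : I → ℤˣ) (hx : x ∈ H) : ‖h x‖ ≤ ‖J (restr Z H h)‖ := by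
  have := hJ.eval x (restr Z H h)
  rwa [restr_apply, if_pos hx] at this

theorem Cls.restr_le (hJ : Cls B J) (H : Subgroup (I → ℤˣ)) [DecidablePred (· ∈ H)]
    (h : (I → ℤˣ) → Z) : ‖J (restr Z H h)‖ ≤ ‖J h‖ := hJ.indicator H h

/-- invariance of the restricted norm under translations in `H`. -/
theorem Cls.restr_trans (hJ : Cls B J) (H : Subgroup (I → ℤˣ)) [DecidablePred (· ∈ H)]
    (h : (I → ℤˣ) → Z) (x : I → ℤˣ) (hx : x ∈ H) :
    ‖J (restr Z H (fun η => h (x * η)))‖ ≤ ‖J (restr Z H h)‖ := by
  rw [restr_translate H h x hx]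
  exact hJ.trans x _

end C

section Closure

variable {Z X : Type*} [NormedAddCommGroup Z] [NormedSpace ℝ Z] [NormedAddCommGroup X]
  [NormedSpace ℝ X] {I : Type} [Fintype I] [DecidableEq I] {B : ℝ}
  {J : ((I → ℤˣ) → Z) →ₗ[ℝ] X}

/-- `pull` as a homomorphism -/
def pullHom {I K : Type} (φ : I → Option K) : (K → ℤˣ) →* (I → ℤˣ) where
  toFun := pull φ
  map_one' := by
    funext i
    simp only [pull, Pi.one_apply]
    rcases φ i with _ | j <;> simp
  map_mul' := pull_mul φ

/-- composition with a map, as a linear map -/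
def compLin (Z : Type*) [NormedAddCommGroup Z] [NormedSpace ℝ Z] {α β : Type} (R : β → α) :
    (α → Z) →ₗ[ℝ] (β → Z) where
  toFun v := fun η => v (R η)
  map_add' _ _ := rfl
  map_smul' _ _ := rfl

/-- closure for substitutions with a section -/
theorem Cls.closure_aux (hJ : Cls B J) {K : Type} [Fintype K] [DecidableEq K]
    (φ : I → Option K) (r : K → I) (hr : ∀ y, φ (r y) = some y)
    [DecidablePred (· ∈ (pullHom φ).range)] :
    Cls B (J ∘ₗ restr Z (pullHom φ).range ∘ₗ compLin Z (fun (η : I → ℤˣ) (y : K) => η (r y))) := by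
  have hrinj : Function.Injective r := by
    intro y y' h
    have h1 := hr y
    rw [h, hr y'] at h1
    exact (Option.some_injective _ h1).symm
  have hRT : ∀ χ : K → ℤˣ, (fun y => pull φ χ (r y)) = χ := by
    intro χ
    funext y
    simp [pull, hr y]
  refine ⟨?_, ?_, ?_, ?_⟩
  · intro g v
    have h1 := hJ.restr_trans (pullHom φ).range (fun η : I → ℤˣ => v (fun y => η (r y)))
      (pull φ g) ⟨g, rfl⟩
    refine le_trans (le_of_eq ?_) h1
    have h2 : (fun η : I → ℤˣ => v (fun y => (pull φ g * η) (r y))) =
        fun η : I → ℤˣ => v (g * fun y => η (r y)) := by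
      funext η
      congr 1
      funext y
      simp [pull, hr y]
    simp only [LinearMap.comp_apply]
    rw [h2]
    rfl
  · intro S v
    have h1 := hJ.modul (S.map ⟨r, hrinj⟩)
      (restr Z (pullHom φ).range (fun η : I → ℤˣ => v (fun y => η (r y))))
    refine le_trans (le_of_eq ?_) h1
    simp only [LinearMap.comp_apply]
    congr 2
    funext η
    simp only [restr_apply, compLin, LinearMap.coe_mk, AddHom.coe_mk]
    have h3 : walsh (S.map ⟨r, hrinj⟩) η = walsh S fun y => η (r y) := by
      simp [walsh]
    rw [h3]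
    split_ifs
    · rfl
    · rw [smul_zero]
  all_goals
    intro z
    have h1 : restr Z (pullHom φ).range (compLin Z (fun (η : I → ℤˣ) (y : K) => η (r y))
        (dl z)) = dl z := by
      funext η
      simp only [restr_apply, compLin, LinearMap.coe_mk, AddHom.coe_mk, dl]
      by_cases h2 : η ∈ (pullHom φ).range
      · obtain ⟨χ, rfl⟩ := h2
        have h3 : (fun y => (pullHom φ) χ (r y)) = χ := hRT χ
        rw [if_pos ⟨χ, rfl⟩, h3]
        have h4 : χ = 1 ↔ (pullHom φ) χ = 1 := by
          constructor
          · intro h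
            rw [h, map_one]
          · intro h
            rw [← h3, h]
            rfl
        by_cases h5 : χ = 1
        · rw [if_pos h5, if_pos (h4.mp h5)]
        · rw [if_neg h5, if_neg (fun h => h5 (h4.mpr h))]
      · rw [if_neg h2, if_neg]
        intro h
        apply h2
        rw [h]
        exact one_mem _
    simp only [LinearMap.comp_apply]
    rw [h1]
    first
      | exact hJ.lower z
      | exact hJ.upper z

theorem wc_comp_pull {K : Type} [Fintype K] [DecidableEq K] (φ : I → Option K)
    (u : (I → ℤˣ) → Z) (S' : Finset K) :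
    wc S' (fun χ => u (pull φ χ)) =
      ∑ S : Finset I, (if S' = oddset φ S then (1:ℝ) else 0) • wc S u := by
  have h1 : (fun χ : K → ℤˣ => u (pull φ χ)) =
      fun χ => ∑ S : Finset I, walsh (oddset φ S) χ • wc S u := by
    funext χ
    rw [← sum_walsh_smul_wc u (pull φ χ)]
    apply Finset.sum_congr rfl
    intro S _
    rw [walsh_pull]
  rw [h1]
  have h2 : wc S' (fun χ : K → ℤˣ => ∑ S : Finset I, walsh (oddset φ S) χ • wc S u) =
      ∑ S : Finset I, wc S' (fun χ : K → ℤˣ => walsh (oddset φ S) χ • wc S u) := by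
    simp only [wc, Finset.smul_sum]
    rw [avg_sum]
  rw [h2]
  apply Finset.sum_congr rfl
  intro S _
  rw [wc_walsh_smul]
  split_ifs <;> simp

theorem level_comp_pull {K : Type} [Fintype K] [DecidableEq K] (φ : I → Option K)
    (u : (I → ℤˣ) → Z) (k : ℕ) :
    ∑ S' : Finset K, (if #S' = k then (1:ℝ) else 0) • wc S' (fun χ => u (pull φ χ)) =
      ∑ S : Finset I, (if #(oddset φ S) = k then (1:ℝ) else 0) • wc S u := by
  simp only [wc_comp_pull, Finset.smul_sum, smul_smul]
  rw [Finset.sum_comm]
  apply Finset.sum_congr rfl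
  intro S _
  rw [← Finset.sum_smul]
  congr 1
  rw [Finset.sum_eq_single (oddset φ S)]
  · simp
  · intro S' _ h
    simp [h]
  · intro h
    exact absurd (Finset.mem_univ _) h

/-- closure under `u ↦ u ∘ pull φ` -/
theorem Cls.closure (hJ : Cls B J) {I' : Type} [Fintype I'] [DecidableEq I'] (φ : I → Option I')
    (u : (I → ℤˣ) → Z) : ∃ (I'' : Type) (_ : Fintype I'') (_ : DecidableEq I'')
      (J'' : ((I'' → ℤˣ) → Z) →ₗ[ℝ] X) (u'' : (I'' → ℤˣ) → Z), Cls B J'' ∧
      ‖J'' u''‖ ≤ ‖J u‖ ∧ Fintype.card I'' ≤ Fintype.card I ∧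
      Fintype.card I'' ≤ Fintype.card I' ∧
      ∀ k : ℕ, ∑ S : Finset I'', (if #S = k then (1:ℝ) else 0) • wc S u'' =
        ∑ S : Finset I, (if #(oddset φ S) = k then (1:ℝ) else 0) • wc S u := by
  classical
  let K := {x : I' // ∃ i, φ i = some x}
  let φ' : I → Option K := fun i => if h : ∃ y : K, φ i = some y.1 then some h.choose else none
  have hφ' : ∀ (i : I) (y : K), φ' i = some y ↔ φ i = some y.1 := by
    intro i y
    constructor
    · intro h
      by_cases h1 : ∃ y : K, φ i = some y.1
      · have h2 : φ' i = some h1.choose := dif_pos h1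
        rw [h2] at h
        have h3 := Option.some_injective _ h
        rw [← h3]
        exact h1.choose_spec
      · have h2 : φ' i = none := dif_neg h1
        rw [h2] at h
        exact absurd h (by simp)
    · intro h
      have h1 : ∃ y : K, φ i = some y.1 := ⟨y, h⟩
      have h2 : φ' i = some h1.choose := dif_pos h1
      rw [h2]
      congr 1
      apply Subtype.ext
      have h3 : some y.1 = some h1.choose.1 := h.symm.trans h1.choose_spec
      exact (Option.some_injective _ h3).symm
  let r : K → I := fun y => y.2.choose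
  have hr : ∀ y, φ' (r y) = some y := by
    intro y
    rw [hφ']
    exact y.2.choose_spec
  have hodd : ∀ S : Finset I, #(oddset φ' S) = #(oddset φ S) := by
    intro S
    have h1 : (oddset φ' S).map (Function.Embedding.subtype _) = oddset φ S := by
      ext x
      simp only [oddset, Finset.mem_map, Finset.mem_filter, Finset.mem_univ, true_and,
        Function.Embedding.subtype_apply]
      constructor
      · rintro ⟨y, hy, rfl⟩
        have : (S.filter fun i => φ' i = some y) = S.filter fun i => φ i = some y.1 := by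
          apply Finset.filter_congr
          intro i _
          exact hφ' i y
        rwa [this] at hy
      · intro hx
        have h2 : ∃ i, φ i = some x := by
          by_contra hcon
          push Not at hcon
          have : (S.filter fun i => φ i = some x) = ∅ := by
            apply Finset.filter_false_of_mem
            intro i _
            exact hcon i
          rw [this] at hx
          simp at hx
        refine ⟨⟨x, h2⟩, ?_, rfl⟩
        have : (S.filter fun i => φ' i = some ⟨x, h2⟩) = S.filter fun i => φ i = some x := by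
          apply Finset.filter_congr
          intro i _
          exact hφ' i ⟨x, h2⟩
        rwa [this]
    rw [← h1, Finset.card_map]
  refine ⟨K, inferInstance, inferInstance, _, fun χ => u (pull φ' χ),
    hJ.closure_aux φ' r hr, ?_, ?_, ?_, ?_⟩
  · refine le_trans (le_of_eq ?_) (hJ.restr_le (pullHom φ').range u)
    simp only [LinearMap.comp_apply]
    congr 2
    funext η
    simp only [restr_apply, compLin, LinearMap.coe_mk, AddHom.coe_mk]
    by_cases h : η ∈ (pullHom φ').range
    · obtain ⟨χ, rfl⟩ := h
      rw [if_pos ⟨χ, rfl⟩, if_pos ⟨χ, rfl⟩]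
      congr 1
      have h3 : (fun y => (pullHom φ') χ (r y)) = χ := by
        funext y
        show pull φ' χ (r y) = χ y
        simp [pull, hr y]
      rw [h3]
      rfl
    · rw [if_neg h, if_neg h]
  · apply Fintype.card_le_of_injective r
    intro y y' h
    have h1 := hr y
    rw [h, hr y'] at h1
    exact (Option.some_injective _ h1).symm
  · exact Fintype.card_subtype_le _
  · intro k
    rw [level_comp_pull]
    simp only [hodd]

end Closure

end Vale.Agent.P111.HM
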