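import Vale.Agent.P111.HM.A
import Vale.Agent.P111.HM.C

/-! Level `k` bound. -/

set_option linter.unusedSectionVars false

namespace Vale.Agent.P111.HM

open Finset Vale.Agent.P111

section D

variable {Z X : Type*} [NormedAddCommGroup Z] [NormedSpace ℝ Z] [NormedAddCommGroup X]
  [NormedSpace ℝ X] {I : Type} [Fintype I] [DecidableEq I]
  {J : ((I → ℤˣ) → Z) →ₗ[ℝ] X}

/-- Bounds of level multipliers for functions with values in the range of `J ∘ restr`. -/
theorem bd_range {B b : ℝ} (hB : 0 ≤ B) (hb : 0 ≤ b) (hJ : Cls B J) (H : Subgroup (I → ℤˣ))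
    [DecidablePred (· ∈ H)] {I' : Type} [Fintype I'] [DecidableEq I'] {m : Finset I' → ℝ}
    (h : Bd (ContinuousLinearMap.id ℝ Z) m b) :
    Bd (ContinuousLinearMap.id ℝ (LinearMap.range (J ∘ₗ restr Z H))) m
      (Nat.card H * B * b) := by
  classical
  rw [Nat.card_eq_fintype_card]
  set JH := J ∘ₗ restr Z H with hJH
  -- right inverse
  obtain ⟨ρ, hρ⟩ := JH.rangeRestrict.exists_rightInverse_of_surjective
    (LinearMap.range_rangeRestrict JH)
  have hρ' : ∀ y : LinearMap.range JH, JH (ρ y) = y := by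
    intro y
    have := LinearMap.congr_fun hρ y
    exact congrArg Subtype.val this
  have hlow : ∀ (x : H) (y : LinearMap.range JH), ‖ρ y x‖ ≤ ‖y‖ := by
    intro x y
    have h1 := hJ.le_restr H (ρ y) x x.2
    have h2 : ‖y‖ = ‖J (restr Z H (ρ y))‖ := by
      have h3 : J (restr Z H (ρ y)) = (y : X) := hρ' y
      rw [h3]
      rfl
    rw [h2]
    exact h1
  let cf : H → (LinearMap.range JH) →L[ℝ] Z := fun x =>
    LinearMap.mkContinuous ((LinearMap.proj (x : I → ℤˣ)) ∘ₗ ρ) 1 (fun y => by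
      rw [one_mul]
      exact hlow x y)
  have hpt : ∀ (x : H) (z : Z), ‖J (restr Z H (fun η => if η = x then z else 0))‖ ≤ B * ‖z‖ := by
    intro x z
    refine (hJ.restr_le H _).trans ?_
    have h1 := hJ.trans (x : I → ℤˣ)⁻¹ (dl z)
    have h2 : (fun η : I → ℤˣ => (dl z : (I → ℤˣ) → Z) ((x : I → ℤˣ)⁻¹ * η)) =
        fun η : I → ℤˣ => if η = (x : I → ℤˣ) then z else 0 := by
      funext η
      simp only [dl, inv_mul_eq_one]
      by_cases h3 : η = (x : I → ℤˣ)
      · simp [h3]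
      · simp [h3, Ne.symm h3]
    rw [h2] at h1
    exact h1.trans (hJ.upper z)
  let el : H → Z →ₗ[ℝ] (LinearMap.range JH) := fun x =>
    { toFun := fun z => JH.rangeRestrict (fun η => if η = x then z else 0)
      map_add' := by
        intro z z'
        rw [← map_add]
        congr 1
        funext η
        by_cases hη : η = x <;> simp [hη]
      map_smul' := by
        intro a z
        rw [← map_smul]
        congr 1
        funext η
        by_cases hη : η = x <;> simp [hη] }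
  let e : H → Z →L[ℝ] (LinearMap.range JH) := fun x =>
    LinearMap.mkContinuous (el x) B (fun z => hpt x z)
  refine bd_of_factor Finset.univ e cf B b hB ?_ ?_ ?_ hb h
  · intro x
    exact LinearMap.mkContinuous_norm_le _ hB _
  · intro x
    exact LinearMap.mkContinuous_norm_le _ zero_le_one _
  · intro y
    apply Subtype.ext
    rw [← hρ' y]
    rw [Submodule.coe_sum]
    have h1 : ∀ x : H, ((e x (cf x y) : LinearMap.range JH) : X) =
        JH (fun η => if η = x then ρ y x else 0) := fun x => rfl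
    simp only [h1]
    rw [← map_sum]
    show J (restr Z H _) = J (restr Z H _)
    congr 1
    funext η
    simp only [restr_apply, Finset.sum_apply]
    by_cases hη : η ∈ H
    · simp only [hη, if_true]
      rw [Finset.sum_eq_single (⟨η, hη⟩ : H)]
      · simp
      · intro x _ hx
        rw [if_neg]
        intro h3
        exact hx (Subtype.ext h3.symm)
      · intro h3
        exact absurd (Finset.mem_univ _) h3
    · simp [hη]

/-- the level one multiplier of a block, on the range of `J ∘ restr`. -/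
theorem bd_tau_range {B b : ℝ} (hB : 1 ≤ B) (hb : 1 ≤ b) (hZ : LevelBd b Z) (hJ : Cls B J)
    (H : Subgroup (I → ℤˣ)) [DecidablePred (· ∈ H)] {D : ℕ} (hD : 1 ≤ D) {R : ℝ} (hR : 2 ≤ R)
    (hRD : Nat.card H * B ≤ R ^ D) {I' : Type} [Fintype I'] [DecidableEq I']
    (C : Finset I') :
    Bd (ContinuousLinearMap.id ℝ (LinearMap.range (J ∘ₗ restr Z H)))
      (fun S : Finset I' => tau #(S ∩ C)) (2 * 5 ^ D * R * b) := by
  have h1 := bd_tau_of_card (V := ContinuousLinearMap.id ℝ (LinearMap.range (J ∘ₗ restr Z H)))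
    (I := I') (κ := Nat.card H * B) (b := b) (B := R) (D := D) (by positivity) hb hD hR hRD
    (J := C) (v := fun _ => 1) (bd_one (ContinuousLinearMap.norm_id_le)) (by
      intro k hk
      have h2 := bd_range (I' := I') (by linarith : (0:ℝ) ≤ B) (by positivity) hJ H
        (hZ I' C k hk)
      simpa using h2)
  simpa using h1

/-- The rainbow multiplier. -/
noncomputable def rb {k : ℕ} (c : I → Fin k) (S : Finset I) : ℝ :=
  ∏ l : Fin k, tau #(S ∩ Finset.univ.filter fun i => c i = l)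

theorem bd_rb_range {B b : ℝ} (hB : 1 ≤ B) (hb : 1 ≤ b) (hZ : LevelBd b Z) (hJ : Cls B J)
    (H : Subgroup (I → ℤˣ)) [DecidablePred (· ∈ H)] {D : ℕ} (hD : 1 ≤ D) {R : ℝ} (hR : 2 ≤ R)
    (hRD : Nat.card H * B ≤ R ^ D) {k : ℕ} (c : I → Fin k) :
    Bd (ContinuousLinearMap.id ℝ (LinearMap.range (J ∘ₗ restr Z H)))
      (rb c) ((2 * 5 ^ D * R * b) ^ k) := by
  apply bd_prod (by positivity)
  intro l
  exact bd_tau_range hB hb hZ hJ H hD hR hRD _

/-- `V_h`. -/
noncomputable def vf (J : ((I → ℤˣ) → Z) →ₗ[ℝ] X) (H : Subgroup (I → ℤˣ))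
    [DecidablePred (· ∈ H)] (h : (I → ℤˣ) → Z) (η : I → ℤˣ) : X :=
  J (restr Z H fun ξ => h (η * ξ))

/-- the same with values in the range -/
noncomputable def vr (J : ((I → ℤˣ) → Z) →ₗ[ℝ] X) (H : Subgroup (I → ℤˣ))
    [DecidablePred (· ∈ H)] (h : (I → ℤˣ) → Z) (η : I → ℤˣ) : LinearMap.range (J ∘ₗ restr Z H) :=
  (J ∘ₗ restr Z H).rangeRestrict fun ξ => h (η * ξ)

theorem wc_linear {E F : Type*} [AddCommGroup E] [Module ℝ E] [AddCommGroup F] [Module ℝ F]
    (Λ : E →ₗ[ℝ] F) (S : Finset I) (f : (I → ℤˣ) → E) :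
    wc S (fun η => Λ (f η)) = Λ (wc S f) := by
  simp only [wc]
  rw [map_avg]
  apply avg_congr
  intro ω
  rw [map_smul]

theorem wc_vr (H : Subgroup (I → ℤˣ)) [DecidablePred (· ∈ H)] (h : (I → ℤˣ) → Z) (S : Finset I) :
    wc S (vr J H h) = (J ∘ₗ restr Z H).rangeRestrict (fun ξ => walsh S ξ • wc S h) := by
  have h1 := wc_linear (J ∘ₗ restr Z H).rangeRestrict S (fun η : I → ℤˣ => fun ξ => h (η * ξ))
  have h2 : wc S (vr J H h) = (J ∘ₗ restr Z H).rangeRestrict
      (wc S (fun η : I → ℤˣ => fun ξ => h (η * ξ))) := h1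
  rw [h2]
  congr 1
  funext ξ
  have h3 : (wc S (fun η : I → ℤˣ => fun ξ : I → ℤˣ => h (η * ξ))) ξ =
      wc S (fun η : I → ℤˣ => h (η * ξ)) := by
    have := wc_linear (LinearMap.proj ξ : ((I → ℤˣ) → Z) →ₗ[ℝ] Z) S
      (fun η : I → ℤˣ => fun ξ => h (η * ξ))
    exact this.symm
  rw [h3]
  have h4 : (fun η : I → ℤˣ => h (η * ξ)) = fun η => h (ξ * η) := by
    funext η
    rw [mul_comm]
  rw [h4, wc_translate]

theorem mm_vr (H : Subgroup (I → ℤˣ)) [DecidablePred (· ∈ H)] (h : (I → ℤˣ) → Z)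
    (m : Finset I → ℝ) : mm m (vr J H h) = vr J H (mm m h) := by
  funext η
  simp only [mm, wc_vr]
  rw [vr]
  simp only [← map_smul]
  rw [← map_sum]
  congr 1
  funext ξ
  simp only [Finset.sum_apply, Pi.smul_apply]
  apply Finset.sum_congr rfl
  intro S _
  rw [smul_smul, walsh_mul]
  congr 1
  ring

theorem norm_vr (H : Subgroup (I → ℤˣ)) [DecidablePred (· ∈ H)] (h : (I → ℤˣ) → Z)
    (η : I → ℤˣ) : ‖vr J H h η‖ = ‖vf J H h η‖ := rfl

theorem norm_vf_le {B : ℝ} (hJ : Cls B J) (H : Subgroup (I → ℤˣ)) [DecidablePred (· ∈ H)]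
    (h : (I → ℤˣ) → Z) (η : I → ℤˣ) : ‖vf J H h η‖ ≤ ‖J h‖ :=
  (hJ.restr_le H _).trans (hJ.trans η h)

theorem norm_vf_mul {B : ℝ} (hJ : Cls B J) (H : Subgroup (I → ℤˣ)) [DecidablePred (· ∈ H)]
    (h : (I → ℤˣ) → Z) (η x : I → ℤˣ) (hx : x ∈ H) : ‖vf J H h η‖ = ‖vf J H h (η * x)‖ := by
  have key : ∀ η : I → ℤˣ, ‖vf J H h (η * x)‖ ≤ ‖vf J H h η‖ := by
    intro η
    have h1 := hJ.restr_trans H (fun ξ => h (η * ξ)) x hx
    unfold vf
    refine le_trans (le_of_eq ?_) h1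
    congr 3
    funext ξ
    rw [mul_assoc]
  apply le_antisymm _ (key η)
  have h2 := key (η * x)
  have h3 : η * x * x = η := by
    rw [mul_assoc]
    have : x * x = 1 := by
      funext i
      simp
    rw [this, mul_one]
  rwa [h3] at h2

theorem nrm_vf_rb_le {B b : ℝ} (hB : 1 ≤ B) (hb : 1 ≤ b) (hZ : LevelBd b Z) (hJ : Cls B J)
    (H : Subgroup (I → ℤˣ)) [DecidablePred (· ∈ H)] {D : ℕ} (hD : 1 ≤ D) {R : ℝ} (hR : 2 ≤ R)
    (hRD : Nat.card H * B ≤ R ^ D) {k : ℕ} (c : I → Fin k) (u : (I → ℤˣ) → Z) :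
    nrm (vf J H (mm (rb c) u)) ≤ (2 * 5 ^ D * R * b) ^ k * ‖J u‖ := by
  have h1 := nrm_mm_le (by positivity) (bd_rb_range hB hb hZ hJ H hD hR hRD c) (vr J H u)
  rw [mm_vr] at h1
  have h2 : nrm (vr J H (mm (rb c) u)) = nrm (vf J H (mm (rb c) u)) := rfl
  rw [h2] at h1
  refine h1.trans ?_
  have h3 : nrm (vr J H u) ≤ ‖J u‖ := by
    unfold nrm
    apply Real.sqrt_le_iff.2 ⟨norm_nonneg _, ?_⟩
    have h4 : (avg fun ω => ‖vr J H u ω‖ ^ 2) ≤ avg fun _ : I → ℤˣ => ‖J u‖ ^ 2 := by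
      apply avg_mono
      intro ω
      rw [norm_vr]
      have := norm_vf_le hJ H u ω
      gcongr
    refine h4.trans (le_of_eq ?_)
    rw [avg_const]
  gcongr

/-! merging -/

/-- keep only the coordinates of colour `l` -/
def keep {k : ℕ} (c : I → Fin k) (l : Fin k) (ξ : I → ℤˣ) : I → ℤˣ :=
  fun i => if c i = l then ξ i else 1

/-- colour class -/
def cls {k : ℕ} (c : I → Fin k) (l : Fin k) : Finset I := Finset.univ.filter fun i => c i = l

theorem walsh_keep {k : ℕ} (c : I → Fin k) (l : Fin k) (S : Finset I) (ξ : I → ℤˣ) :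
    walsh S (keep c l ξ) = walsh (S ∩ cls c l) ξ := by
  have h1 : S ∩ cls c l = S.filter fun i => c i = l := by
    ext i
    simp [cls]
  rw [h1, walsh, walsh, Finset.prod_filter]
  apply Finset.prod_congr rfl
  intro i _
  simp only [keep]
  split_ifs <;> simp

/-- The homomorphism `T`. -/
def tm {k L : ℕ} (c : I → Fin k) (enc : I → Finset (Fin L)) :
    (Fin k → Fin L → ℤˣ) →* (I → ℤˣ) where
  toFun χ := fun i => H1.ch (χ (c i)) (enc i)
  map_one' := by
    funext i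
    simp [H1.ch]
  map_mul' χ χ' := by
    funext i
    simp [H1.ch, Finset.prod_mul_distrib]

theorem keep_mem {k L : ℕ} (c : I → Fin k) (enc : I → Finset (Fin L)) (l : Fin k)
    (lam : Fin L → ℤˣ) : keep c l (fun i => H1.ch lam (enc i)) ∈ (tm c enc).range := by
  refine ⟨fun l' => if l' = l then lam else 1, ?_⟩
  funext i
  simp only [tm, keep, MonoidHom.coe_mk, OneHom.coe_mk]
  split_ifs
  · rfl
  · simp [H1.ch]

theorem card_range_le {k L : ℕ} (c : I → Fin k) (enc : I → Finset (Fin L)) :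
    (Nat.card (tm c enc).range : ℝ) ≤ 2 ^ (k * L) := by
  have h1 : Nat.card (tm c enc).range ≤ Nat.card (Fin k → Fin L → ℤˣ) :=
    Nat.card_le_card_of_surjective _ (tm c enc).rangeRestrict_surjective
  have h2 : Nat.card (Fin k → Fin L → ℤˣ) = 2 ^ (k * L) := by
    rw [mul_comm, pow_mul]
    simp
  rw [h2] at h1
  exact_mod_cast h1

/-- averaging over the coordinates of a colour is a multiplier -/
theorem avg_keep {k : ℕ} (c : I → Fin k) (l : Fin k) (F : (I → ℤˣ) → ℝ) (g : I → ℤˣ) :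
    (avg fun ξ : I → ℤˣ => F (g * keep c l ξ)) =
      mm (fun S => if S ∩ cls c l = ∅ then (1:ℝ) else 0) F g := by
  have h1 : ∀ ξ : I → ℤˣ, F (g * keep c l ξ) =
      ∑ S : Finset I, walsh (S ∩ cls c l) ξ * (walsh S g * wc S F) := by
    intro ξ
    rw [← sum_walsh_smul_wc F (g * keep c l ξ)]
    apply Finset.sum_congr rfl
    intro S _
    rw [walsh_mul, walsh_keep, smul_eq_mul]
    ring
  simp only [h1]
  rw [avg_sum]
  simp only [mm]
  apply Finset.sum_congr rfl
  intro S _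
  rw [avg_mul_right, avg_walsh, smul_eq_mul]
  split_ifs <;> ring

/-- one step of merging -/
theorem merge_step {A s : ℝ} (hML : ML A s X) {k L : ℕ} (c : I → Fin k)
    (enc : I → Finset (Fin L)) (henc : Function.Injective enc) (l : Fin k) (G : (I → ℤˣ) → X)
    (hG : ∀ S, #(S ∩ cls c l) ≠ 1 → wc S G = 0)
    (hinv : ∀ (g : I → ℤˣ) (lam : Fin L → ℤˣ),
      ‖G g‖ = ‖G (g * keep c l (fun i => H1.ch lam (enc i)))‖) (g : I → ℤˣ) :
    ‖G g‖ ^ 2 ≤ (A * ((2 : ℝ) ^ L) ^ s) ^ 2 * avg fun ξ : I → ℤˣ => ‖G (g * keep c l ξ)‖ ^ 2 := by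
  set C := cls c l with hC
  let Y : I → X := fun i => ∑ S : Finset I, (if S ∩ C = {i} then walsh S g else 0) • wc S G
  have h1 : ∀ ξ : I → ℤˣ, G (g * keep c l ξ) = ∑ i, sg (ξ i) • Y i := by
    intro ξ
    rw [← sum_walsh_smul_wc G (g * keep c l ξ)]
    simp only [Y, Finset.smul_sum]
    rw [Finset.sum_comm]
    apply Finset.sum_congr rfl
    intro S _
    rw [walsh_mul, walsh_keep, ← hC]
    by_cases hS : #(S ∩ C) = 1
    · obtain ⟨i0, hi0⟩ := Finset.card_eq_one.mp hS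
      rw [Finset.sum_eq_single i0]
      · rw [hi0, if_pos rfl, walsh_singleton, smul_smul, mul_comm]
      · intro i _ hi
        rw [if_neg, zero_smul, smul_zero]
        rw [hi0]
        intro h
        exact hi (Finset.singleton_injective h).symm
      · intro h
        exact absurd (Finset.mem_univ _) h
    · rw [hG S hS]
      simp
  let y' : Finset (Fin L) → X := fun t => ∑ i, if enc i = t then Y i else 0
  have h2 : ∀ w : Finset (Fin L) → ℝ, ∑ t, w t • y' t = ∑ i, w (enc i) • Y i := by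
    intro w
    simp only [y', Finset.smul_sum]
    rw [Finset.sum_comm]
    apply Finset.sum_congr rfl
    intro i _
    rw [Finset.sum_eq_single (enc i)]
    · simp
    · intro t _ ht
      rw [if_neg (Ne.symm ht), smul_zero]
    · intro h
      exact absurd (Finset.mem_univ _) h
  have h3 := hML L y'
  have h4 : (avg fun lam : Fin L → ℤˣ => ‖∑ t, sg (H1.ch lam t) • y' t‖ ^ 2) = ‖G g‖ ^ 2 := by
    have : ∀ lam : Fin L → ℤˣ, ‖∑ t, sg (H1.ch lam t) • y' t‖ ^ 2 = ‖G g‖ ^ 2 := by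
      intro lam
      rw [h2 (fun t => sg (H1.ch lam t)), hinv g lam, h1]
    simp only [this]
    rw [avg_const]
  have h5 : H1.rsq y' = avg fun ξ : I → ℤˣ => ‖G (g * keep c l ξ)‖ ^ 2 := by
    unfold H1.rsq
    have e1 : ∀ δ : H1.Cube (Finset (Fin L)), ‖∑ t, sg (δ t) • y' t‖ ^ 2 =
        ‖G (g * keep c l (fun i => δ (enc i)))‖ ^ 2 := by
      intro δ
      rw [h2 (fun t => sg (δ t)), h1]
    simp only [e1]
    exact H1.avg_cube_comp enc henc (fun ξ : I → ℤˣ => ‖G (g * keep c l ξ)‖ ^ 2)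
  rw [h4, h5] at h3
  exact h3

theorem merge_all {A s : ℝ} (hML : ML A s X) {k L : ℕ} (c : I → Fin k)
    (enc : I → Finset (Fin L)) (henc : Function.Injective enc) (G : (I → ℤˣ) → X)
    (hG : ∀ (l : Fin k) (S), #(S ∩ cls c l) ≠ 1 → wc S G = 0)
    (hinv : ∀ (l : Fin k) (g : I → ℤˣ) (lam : Fin L → ℤˣ),
      ‖G g‖ = ‖G (g * keep c l (fun i => H1.ch lam (enc i)))‖) (g : I → ℤˣ) :
    ‖G g‖ ^ 2 ≤ ((A * ((2 : ℝ) ^ L) ^ s) ^ 2) ^ k * avg fun ξ : I → ℤˣ => ‖G ξ‖ ^ 2 := by
  set Q := (A * ((2 : ℝ) ^ L) ^ s) ^ 2 with hQ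
  have hQ0 : 0 ≤ Q := sq_nonneg _
  have key : ∀ (t : Finset (Fin k)) (g : I → ℤˣ), ‖G g‖ ^ 2 ≤ Q ^ #t *
      mm (fun S => ∏ l ∈ t, if S ∩ cls c l = ∅ then (1:ℝ) else 0) (fun ξ => ‖G ξ‖ ^ 2) g := by
    intro t
    induction t using Finset.induction_on with
    | empty =>
      intro g
      simp only [Finset.card_empty, pow_zero, one_mul, Finset.prod_empty, mm]
      rw [sum_walsh_smul_wc]
    | insert l t hl ih =>
      intro g
      rw [Finset.card_insert_of_notMem hl, pow_succ' Q]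
      refine (merge_step hML c enc henc l G (hG l) (hinv l) g).trans ?_
      rw [mul_assoc]
      refine mul_le_mul_of_nonneg_left ?_ hQ0
      have h1 : (avg fun ξ : I → ℤˣ => ‖G (g * keep c l ξ)‖ ^ 2) ≤
          avg fun ξ : I → ℤˣ => Q ^ #t * mm (fun S => ∏ l ∈ t, if S ∩ cls c l = ∅ then (1:ℝ) else 0)
            (fun ξ => ‖G ξ‖ ^ 2) (g * keep c l ξ) := avg_mono fun ξ => ih _
      refine h1.trans (le_of_eq ?_)
      rw [avg_mul_left]
      congr 1
      rw [avg_keep, mm_mm]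
      congr 1
      funext S
      rw [Finset.prod_insert hl]
  have h1 := key Finset.univ g
  rw [Finset.card_univ, Fintype.card_fin] at h1
  refine h1.trans (le_of_eq ?_)
  congr 1
  simp only [mm]
  have h2 : ∀ S : Finset I, (∏ l : Fin k, if S ∩ cls c l = ∅ then (1:ℝ) else 0) =
      if S = ∅ then 1 else 0 := by
    intro S
    split_ifs with hS
    · subst hS
      simp
    · obtain ⟨i, hi⟩ := Finset.nonempty_iff_ne_empty.mpr hS
      apply Finset.prod_eq_zero (Finset.mem_univ (c i))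
      rw [if_neg]
      intro h
      have : i ∈ S ∩ cls c (c i) := by simp [cls, hi]
      rw [h] at this
      simp at this
  rw [Finset.sum_eq_single ∅]
  · rw [h2, if_pos rfl, walsh_empty, one_mul, one_smul]
    simp [wc, walsh_empty]
  · intro S _ hS
    rw [h2, if_neg hS]
    simp
  · intro h
    exact absurd (Finset.mem_univ _) h

theorem wc_vf (H : Subgroup (I → ℤˣ)) [DecidablePred (· ∈ H)] (m : Finset I → ℝ)
    (u : (I → ℤˣ) → Z) (S : Finset I) :
    wc S (vf J H (mm m u)) = m S • J (restr Z H fun ξ => walsh S ξ • wc S u) := by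
  have e1 := wc_vr (J := J) H (mm m u) S
  have e2 : wc S (vf J H (mm m u)) =
      ((wc S (vr J H (mm m u)) : LinearMap.range (J ∘ₗ restr Z H)) : X) :=
    wc_linear (LinearMap.range (J ∘ₗ restr Z H)).subtype S (vr J H (mm m u))
  have e3 : (((J ∘ₗ restr Z H).rangeRestrict (fun ξ => walsh S ξ • wc S (mm m u)) :
      LinearMap.range (J ∘ₗ restr Z H)) : X) =
      J (restr Z H (fun ξ => walsh S ξ • wc S (mm m u))) := rfl
  rw [e2, e1, e3, ← map_smul, ← map_smul, wc_mm]
  congr 2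
  funext ξ
  rw [Pi.smul_apply, smul_comm]

/-- The bound for a fixed colouring, abstract form. -/
theorem rainbow_bound_aux {A s B b : ℝ} (hA : 1 ≤ A) (hML : ML A s X) (hb : 1 ≤ b)
    (hZ : LevelBd b Z) (hB : 1 ≤ B) {L k D : ℕ} (hD : 1 ≤ D) {R : ℝ} (hR : 2 ≤ R)
    (hRD : B * 2 ^ (k * L) ≤ R ^ D) (hJ : Cls B J)
    (u : (I → ℤˣ) → Z) (c : I → Fin k) (enc : I → Finset (Fin L))
    (henc : Function.Injective enc) [DecidablePred (· ∈ (tm c enc).range)] :
    ‖∑ S : Finset I, rb c S • wc S u‖ ≤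
      ((A * ((2 : ℝ) ^ L) ^ s) * (2 * 5 ^ D * R * b)) ^ k * ‖J u‖ := by
  have hcH : (Nat.card (tm c enc).range : ℝ) * B ≤ R ^ D := by
    refine le_trans ?_ hRD
    rw [mul_comm]
    have := card_range_le c enc
    gcongr
  have h1 := nrm_vf_rb_le hB hb hZ hJ (tm c enc).range hD hR hcH c u
  have h2 := merge_all hML c enc henc (vf J (tm c enc).range (mm (rb c) u)) (by
    intro l S hS
    rw [wc_vf]
    have : rb c S = 0 := by
      unfold rb
      apply Finset.prod_eq_zero (Finset.mem_univ l)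
      exact tau_of_ne hS
    rw [this, zero_smul]) (by
    intro l g lam
    exact norm_vf_mul hJ (tm c enc).range (mm (rb c) u) g _ (keep_mem c enc l lam)) 1
  have h3 : ‖∑ S : Finset I, rb c S • wc S u‖ ≤
      ‖vf J (tm c enc).range (mm (rb c) u) 1‖ := by
    have e1 : ∑ S : Finset I, rb c S • wc S u = mm (rb c) u 1 := by
      simp only [mm]
      apply Finset.sum_congr rfl
      intro S _
      rw [walsh_one, mul_one]
    rw [e1]
    have e2 := hJ.le_restr (tm c enc).range (fun ξ => mm (rb c) u (1 * ξ)) 1 (one_mem _)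
    simp only [mul_one] at e2
    exact e2
  have h4 : ‖vf J (tm c enc).range (mm (rb c) u) 1‖ ≤
      (A * ((2 : ℝ) ^ L) ^ s) ^ k * nrm (vf J (tm c enc).range (mm (rb c) u)) := by
    apply le_of_sq_le_sq _ (by
      have := nrm_nonneg (vf J (tm c enc).range (mm (rb c) u))
      positivity)
    refine h2.trans (le_of_eq ?_)
    rw [mul_pow _ (nrm _), nrm_sq]
    ring
  refine h3.trans (h4.trans ?_)
  have e5 : ((A * ((2 : ℝ) ^ L) ^ s) * (2 * 5 ^ D * R * b)) ^ k * ‖J u‖ =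
      (A * ((2 : ℝ) ^ L) ^ s) ^ k * ((2 * 5 ^ D * R * b) ^ k * ‖J u‖) := by
    rw [mul_pow, mul_assoc]
  rw [e5]
  exact mul_le_mul_of_nonneg_left h1 (by positivity)

theorem rainbow_bound {A s B b : ℝ} (hA : 1 ≤ A) (hML : ML A s X) (hb : 1 ≤ b)
    (hZ : LevelBd b Z) (hB : 1 ≤ B) {L k D : ℕ} (hD : 1 ≤ D) {R : ℝ} (hR : 2 ≤ R)
    (hRD : B * 2 ^ (k * L) ≤ R ^ D) (hJ : Cls B J) (hcard : Fintype.card I ≤ 2 ^ L)
    (u : (I → ℤˣ) → Z) (c : I → Fin k) :
    ‖∑ S : Finset I, rb c S • wc S u‖ ≤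
      ((A * ((2 : ℝ) ^ L) ^ s) * (2 * 5 ^ D * R * b)) ^ k * ‖J u‖ := by
  classical
  have hcard' : Fintype.card I ≤ Fintype.card (Finset (Fin L)) := by simpa using hcard
  obtain ⟨enc⟩ := Function.Embedding.nonempty_of_card_le hcard'
  exact rainbow_bound_aux hA hML hb hZ hB hD hR hRD hJ u c enc enc.injective

theorem rb_eq {k : ℕ} (c : I → Fin k) (S : Finset I) :
    rb c S = ∏ l : Fin k, tau #(S.filter fun x => c x = l) := by
  unfold rb
  apply Finset.prod_congr rfl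
  intro l _
  congr 2
  ext i
  simp

/-- Level `k` bound. -/
theorem level_bound {A s B b : ℝ} (hA : 1 ≤ A) (hML : ML A s X) (hb : 1 ≤ b)
    (hZ : LevelBd b Z) (hB : 1 ≤ B) {L k D : ℕ} (hk : k ≠ 0) (hD : 1 ≤ D) {R : ℝ} (hR : 2 ≤ R)
    (hRD : B * 2 ^ (k * L) ≤ R ^ D) (hJ : Cls B J) (hcard : Fintype.card I ≤ 2 ^ L)
    (u : (I → ℤˣ) → Z) :
    ‖∑ S : Finset I, (if #S = k then (1:ℝ) else 0) • wc S u‖ ≤
      (Real.exp 1 * (A * ((2 : ℝ) ^ L) ^ s) * (2 * 5 ^ D * R * b)) ^ k * ‖J u‖ := by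
  have : Nonempty (Fin k) := ⟨⟨0, Nat.pos_of_ne_zero hk⟩⟩
  set M := ((A * ((2 : ℝ) ^ L) ^ s) * (2 * 5 ^ D * R * b)) ^ k * ‖J u‖ with hM
  have hM0 : 0 ≤ M := by positivity
  have h1 : (avg fun c : I → Fin k => ∑ S : Finset I, rb c S • wc S u) =
      ((k.factorial : ℝ) / (k : ℝ) ^ k) •
        ∑ S : Finset I, (if #S = k then (1:ℝ) else 0) • wc S u := by
    rw [avg_sum, Finset.smul_sum]
    apply Finset.sum_congr rfl
    intro S _
    have h2 : (avg fun c : I → Fin k => rb c S • wc S u) =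
        (avg fun c : I → Fin k => rb c S) • wc S u := by
      simp only [avg, smul_eq_mul, ← Finset.sum_smul, smul_smul]
    rw [h2]
    simp only [rb_eq]
    rw [avg_prod_tau hk, smul_smul]
    congr 1
    split_ifs <;> ring
  have h2 : ‖avg fun c : I → Fin k => ∑ S : Finset I, rb c S • wc S u‖ ≤ M := by
    refine (H1.norm_avg_le _).trans ?_
    have h3 : (avg fun c : I → Fin k => ‖∑ S : Finset I, rb c S • wc S u‖) ≤
        avg fun _ : I → Fin k => M := avg_mono fun c =>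
      rainbow_bound hA hML hb hZ hB hD hR hRD hJ hcard u c
    rwa [avg_const] at h3
  rw [h1, norm_smul, Real.norm_of_nonneg (by positivity)] at h2
  have hkk : (0:ℝ) < (k : ℝ) ^ k := by
    have : (0:ℝ) < k := by exact_mod_cast Nat.pos_of_ne_zero hk
    positivity
  have hkf : (0:ℝ) < (k.factorial : ℝ) := by positivity
  have h4 : ‖∑ S : Finset I, (if #S = k then (1:ℝ) else 0) • wc S u‖ ≤
      ((k : ℝ) ^ k / k.factorial) * M := by
    rw [div_mul_eq_mul_div, le_div_iff₀ hkf]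
    rw [div_mul_eq_mul_div, div_le_iff₀ hkk] at h2
    linarith
  refine h4.trans ?_
  have h5 := mul_le_mul_of_nonneg_right (pow_div_factorial_le k) hM0
  refine h5.trans (le_of_eq ?_)
  rw [hM, ← mul_assoc, ← mul_pow]
  congr 2
  ring

end D

end Vale.Agent.P111.HM
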