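import Vale.Agent.P111.Bdl.B1
import Vale.Agent.P111.QL.Defs

/-!
Heisenberg model theorem: definitions and elementary facts.

`I` finite index type, `Q = I → ℤˣ` the cube, `walsh S` the Walsh functions, `wc S u` the Walsh
coefficients.  `J : (Q → Z) →ₗ X`, the (semi)norm under study is `u ↦ ‖J u‖`.
-/

namespace Vale.Agent.P111.HM

open Finset Vale.Agent.P111

/-- Walsh multipliers. -/
noncomputable def mm {E : Type*} [AddCommGroup E] [Module ℝ E] {I : Type} [Fintype I]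
    [DecidableEq I] (m : Finset I → ℝ) (f : (I → ℤˣ) → E) : (I → ℤˣ) → E :=
  fun η => ∑ S : Finset I, (m S * walsh S η) • wc S f

/-- The point mass `z · 1_{1}`. -/
def dl {Z : Type*} [Zero Z] {I : Type} [Fintype I] [DecidableEq I] (z : Z) : (I → ℤˣ) → Z :=
  fun η => if η = 1 then z else 0

section

variable {Z X : Type*} [NormedAddCommGroup Z] [NormedSpace ℝ Z] [NormedAddCommGroup X]
  [NormedSpace ℝ X]

/-- The class of translation and modulation invariant maps. -/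
structure Cls (B : ℝ) {I : Type} [Fintype I] [DecidableEq I]
    (J : ((I → ℤˣ) → Z) →ₗ[ℝ] X) : Prop where
  trans : ∀ (g : I → ℤˣ) (u : (I → ℤˣ) → Z), ‖J (fun η => u (g * η))‖ ≤ ‖J u‖
  modul : ∀ (S : Finset I) (u : (I → ℤˣ) → Z), ‖J (fun η => walsh S η • u η)‖ ≤ ‖J u‖
  lower : ∀ z : Z, ‖z‖ ≤ ‖J (dl z)‖
  upper : ∀ z : Z, ‖J (dl z)‖ ≤ B * ‖z‖

/-- Level multipliers on `Z`-valued functions are bounded by `b ^ k`. -/
def LevelBd (b : ℝ) (Z : Type*) [NormedAddCommGroup Z] [NormedSpace ℝ Z] : Prop :=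
  ∀ (I : Type) [Fintype I] [DecidableEq I] (J : Finset I) (k : ℕ), k ≠ 0 →
    Bd (ContinuousLinearMap.id ℝ Z) (fun S : Finset I => if #(S ∩ J) = k then 1 else 0) (b ^ k)

/-- The merging inequality. -/
def ML (A s : ℝ) (X : Type*) [NormedAddCommGroup X] [NormedSpace ℝ X] : Prop :=
  ∀ (L : ℕ) (y : Finset (Fin L) → X),
    avg (fun lam : Fin L → ℤˣ => ‖∑ t, sg (H1.ch lam t) • y t‖ ^ 2) ≤
      (A * ((2 : ℝ) ^ L) ^ s) ^ 2 * H1.rsq y

/-- The linear functional bound for all index types of cardinality at most `N`. -/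
def Lin (B : ℝ) (Z X : Type*) [NormedAddCommGroup Z] [NormedSpace ℝ Z] [NormedAddCommGroup X]
    [NormedSpace ℝ X] (N : ℕ) (L : ℝ) : Prop :=
  ∀ (I : Type) [Fintype I] [DecidableEq I] (J : ((I → ℤˣ) → Z) →ₗ[ℝ] X), Cls B J →
    Fintype.card I ≤ N → ∀ u : (I → ℤˣ) → Z, ‖∑ i, wc {i} u‖ ≤ L * ‖J u‖

end

end Vale.Agent.P111.HM
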