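import Mathlib

/-!
Heisenberg model theorem, file E: the polynomial lemma.
-/

namespace Vale.Agent.P111.HM

open Finset

section E

open Polynomial

/-- Coefficients of a polynomial of degree `< n` are controlled by its sup norm on `[0,1]`. -/
theorem coeff_le_of_bounded (n : ℕ) : ∃ C : ℝ, 0 ≤ C ∧ ∀ (P : ℝ[X]) (B : ℝ),
    P.degree < n → (∀ b ∈ Set.Icc (0:ℝ) 1, |P.eval b| ≤ B) → ∀ k, |P.coeff k| ≤ C * B := by
  classical
  set v : ℕ → ℝ := fun i => (i : ℝ) / n with hv
  rcases Nat.eq_zero_or_pos n with hn | hn
  · subst hn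
    refine ⟨0, le_refl _, fun P B hP _ k => ?_⟩
    have h0 : P = 0 := by
      rw [← Polynomial.degree_eq_bot]
      have h1 : P.degree < (0 : WithBot ℕ) := by exact_mod_cast hP
      exact Nat.WithBot.lt_zero_iff.mp h1
    simp [h0]
  have hn0 : (0:ℝ) < n := by exact_mod_cast hn
  have hinj : Set.InjOn v (Finset.range n : Finset ℕ) := by
    intro a _ b _ hab
    simp only [hv] at hab
    field_simp at hab
    exact_mod_cast hab
  refine ⟨∑ k ∈ Finset.range n, ∑ i ∈ Finset.range n,
    |(Lagrange.basis (Finset.range n) v i).coeff k|, ?_, ?_⟩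
  · exact Finset.sum_nonneg fun k _ => Finset.sum_nonneg fun i _ => abs_nonneg _
  intro P B hP hB k
  have hB0 : 0 ≤ B := le_trans (abs_nonneg _) (hB 0 (by constructor <;> norm_num))
  by_cases hk : k < n
  · have hdeg : P.degree < #(Finset.range n) := by simpa using hP
    have hPI := Lagrange.eq_interpolate hinj hdeg
    have hc : P.coeff k = ∑ i ∈ Finset.range n,
        P.eval (v i) * (Lagrange.basis (Finset.range n) v i).coeff k := by
      conv_lhs => rw [hPI]
      rw [Lagrange.interpolate_apply, Polynomial.finsetSum_coeff]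
      refine Finset.sum_congr rfl fun i _ => ?_
      rw [Polynomial.coeff_C_mul]
    rw [hc]
    calc |∑ i ∈ Finset.range n, P.eval (v i) * (Lagrange.basis (Finset.range n) v i).coeff k|
        ≤ ∑ i ∈ Finset.range n, |P.eval (v i) * (Lagrange.basis (Finset.range n) v i).coeff k| :=
          Finset.abs_sum_le_sum_abs _ _
      _ ≤ ∑ i ∈ Finset.range n, |(Lagrange.basis (Finset.range n) v i).coeff k| * B := by
          refine Finset.sum_le_sum fun i hi => ?_
          rw [abs_mul, mul_comm]
          refine mul_le_mul_of_nonneg_left ?_ (abs_nonneg _)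
          apply hB
          simp only [hv]
          have hi' : (i : ℝ) ≤ n := by
            have := Finset.mem_range.mp hi
            exact_mod_cast this.le
          exact ⟨by positivity, by rw [div_le_one hn0]; exact hi'⟩
      _ = (∑ i ∈ Finset.range n, |(Lagrange.basis (Finset.range n) v i).coeff k|) * B := by
          rw [Finset.sum_mul]
      _ ≤ _ := by
          refine mul_le_mul_of_nonneg_right ?_ hB0
          exact Finset.single_le_sum (f := fun k => ∑ i ∈ Finset.range n,
            |(Lagrange.basis (Finset.range n) v i).coeff k|)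
            (fun k _ => Finset.sum_nonneg fun i _ => abs_nonneg _) (Finset.mem_range.mpr hk)
  · have h0 : P.coeff k = 0 := by
      apply Polynomial.coeff_eq_zero_of_degree_lt
      refine lt_of_lt_of_le hP ?_
      exact_mod_cast not_lt.mp hk
    rw [h0, abs_zero]
    refine mul_nonneg ?_ hB0
    exact Finset.sum_nonneg fun k _ => Finset.sum_nonneg fun i _ => abs_nonneg _

/-- Monotonicity for polynomials. -/
theorem eval_nonneg_of_deriv {G : ℝ[X]} {c : ℝ} (h0 : 0 ≤ G.eval 0)
    (h : ∀ x ∈ Set.Icc (0:ℝ) c, 0 ≤ G.derivative.eval x) {b : ℝ} (hb : b ∈ Set.Icc (0:ℝ) c) :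
    0 ≤ G.eval b := by
  have hm : MonotoneOn (fun x => G.eval x) (Set.Icc (0:ℝ) c) := by
    refine monotoneOn_of_deriv_nonneg (convex_Icc 0 c) G.continuous.continuousOn
      G.differentiable.differentiableOn ?_
    intro x hx
    rw [Polynomial.deriv]
    exact h x (interior_subset hx)
  have := hm (Set.left_mem_Icc.mpr (hb.1.trans hb.2)) hb hb.1
  exact h0.trans this

theorem abs_eval_le_of_deriv {G H : ℝ[X]} {c : ℝ} (h0 : |G.eval 0| ≤ H.eval 0)
    (h : ∀ x ∈ Set.Icc (0:ℝ) c, |G.derivative.eval x| ≤ H.derivative.eval x) {b : ℝ}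
    (hb : b ∈ Set.Icc (0:ℝ) c) : |G.eval b| ≤ H.eval b := by
  rw [abs_le] at h0 ⊢
  have h1 : 0 ≤ (H - G).eval b := by
    refine eval_nonneg_of_deriv (by simp; linarith [h0.2]) (fun x hx => ?_) hb
    have := abs_le.mp (h x hx)
    simp; linarith [this.2]
  have h2 : 0 ≤ (H + G).eval b := by
    refine eval_nonneg_of_deriv (by simp; linarith [h0.1]) (fun x hx => ?_) hb
    have := abs_le.mp (h x hx)
    simp; linarith [this.1]
  simp at h1 h2
  constructor <;> linarith

/-- Taylor remainder bound for polynomials. -/
theorem taylor_bound (n : ℕ) : ∀ (P : ℝ[X]) (M c : ℝ),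
    (∀ x ∈ Set.Icc (0:ℝ) c, |(hasseDeriv (n + 1) P).eval x| ≤ M) →
    ∀ b ∈ Set.Icc (0:ℝ) c, |P.eval b - ∑ k ∈ Finset.range (n + 1), P.coeff k * b ^ k| ≤
      M * b ^ (n + 1) := by
  induction n with
  | zero =>
    intro P M c h b hb
    have h1 := abs_eval_le_of_deriv (G := P - C (P.coeff 0)) (H := C M * X) (c := c)
      (by simp [Polynomial.coeff_zero_eq_eval_zero]) (fun x hx => by
        have := h x hx
        rw [zero_add, hasseDeriv_one] at this
        simpa using this) hb
    simpa using h1
  | succ n ih =>
    intro P M c h b hb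
    have hder : ∀ x ∈ Set.Icc (0:ℝ) c,
        |(hasseDeriv (n + 1) (derivative P)).eval x| ≤ (n + 2 : ℝ) * M := by
      intro x hx
      have h1 : hasseDeriv (n + 1) (derivative P) = (n + 2) • hasseDeriv (n + 2) P := by
        have := congrArg (fun f => f P) (hasseDeriv_comp (R := ℝ) (n + 1) 1)
        simp only [LinearMap.comp_apply, hasseDeriv_one] at this
        rw [this, LinearMap.smul_apply, Nat.choose_succ_self_right]
      rw [h1]
      have h2 := h x hx
      rw [nsmul_eq_mul, eval_mul]
      simp only [Nat.cast_add, Nat.cast_ofNat, eval_add, eval_natCast, eval_ofNat]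
      rw [abs_mul, abs_of_nonneg (by positivity : (0:ℝ) ≤ n + 2)]
      exact mul_le_mul_of_nonneg_left h2 (by positivity)
    have hih := ih (derivative P) ((n + 2 : ℝ) * M) c hder
    set T : ℝ[X] := ∑ k ∈ Finset.range (n + 2), C (P.coeff k) * X ^ k with hT
    have h1 := abs_eval_le_of_deriv (G := P - T) (H := C M * X ^ (n + 2)) (c := c)
      (by
        have : T.eval 0 = P.coeff 0 := by
          rw [hT, eval_finsetSum]
          simp [Finset.sum_range_succ']
        simp [this, Polynomial.coeff_zero_eq_eval_zero]) (fun x hx => by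
        have h2 := hih x hx
        have h3 : (derivative T).eval x =
            ∑ k ∈ Finset.range (n + 1), (derivative P).coeff k * x ^ k := by
          rw [hT, Polynomial.derivative_sum, eval_finsetSum, Finset.sum_range_succ']
          simp only [derivative_mul, derivative_C, zero_mul, derivative_X_pow, zero_add,
            eval_mul, eval_C, eval_pow, eval_X, coeff_derivative]
          simp
          refine Finset.sum_congr rfl fun k _ => by ring
        have h4 : (derivative (C M * X ^ (n + 2))).eval x = (n + 2 : ℝ) * M * x ^ (n + 1) := by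
          simp
          ring
        rw [derivative_sub, eval_sub, h3, h4]
        exact h2) hb
    have h5 : T.eval b = ∑ k ∈ Finset.range (n + 2), P.coeff k * b ^ k := by
      rw [hT, eval_finsetSum]; simp
    have h6 : (C M * X ^ (n + 2) : ℝ[X]).eval b = M * b ^ (n + 2) := by simp
    rw [eval_sub, h5, h6] at h1
    exact h1

/-- The polynomial lemma. -/
theorem poly_lemma (n : ℕ) (hn : 2 ≤ n) : ∃ C : ℝ, 1 ≤ C ∧ ∀ (P : ℝ[X]) (L M β : ℝ), 1 ≤ L →
    0 < β → β ≤ 1 / 2 → 0 ≤ M → M * β ^ n ≤ 1 → (∀ k, Even k → P.coeff k = 0) →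
    (∀ b ∈ Set.Icc (0:ℝ) 1, |P.eval b| ≤ 1) →
    (∀ b ∈ Set.Icc (0:ℝ) (1 / 2), |(hasseDeriv 1 P).eval b| ≤ 2 * L) →
    (∀ b ∈ Set.Icc (0:ℝ) (1 / 2), |(hasseDeriv (n + 1) P).eval b| ≤ M) →
    ∀ b : ℝ, |b| ≤ 1 → |P.eval b - P.coeff 1 * b| ≤ C * L * |b| ^ 3 / β ^ 2 := by
  obtain ⟨C₀, hC₀, hcoef⟩ := coeff_le_of_bounded n
  refine ⟨3 * (n + 1) * C₀ + 5, by
    nlinarith [mul_nonneg (Nat.cast_nonneg (α := ℝ) n) hC₀], ?_⟩
  intro P L M β hL hβ hβ2 hM hMβ hodd h1 h2 h3
  set K : ℝ := 3 * (n + 1) * C₀ with hK
  have hK0 : 0 ≤ K := by positivity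
  -- the zeroth coefficient vanishes
  have hP0 : P.eval 0 = 0 := by
    rw [← Polynomial.coeff_zero_eq_eval_zero]; exact hodd 0 (by simp)
  -- linear bound on `[0,1/2]`
  have hlin : ∀ b ∈ Set.Icc (0:ℝ) (1 / 2), |P.eval b| ≤ 2 * L * b := by
    intro b hb
    have := abs_eval_le_of_deriv (G := P) (H := C (2 * L) * X) (c := 1 / 2) (by simp [hP0])
      (fun x hx => by
        have := h2 x hx
        rw [hasseDeriv_one] at this
        simpa using this) hb
    simpa using this
  have hlin1 : ∀ b ∈ Set.Icc (0:ℝ) 1, |P.eval b| ≤ 2 * L * b := by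
    intro b hb
    by_cases hb2 : b ≤ 1 / 2
    · exact hlin b ⟨hb.1, hb2⟩
    · push Not at hb2
      refine (h1 b hb).trans ?_
      nlinarith
  have hc1 : |P.coeff 1| ≤ 2 * L := by
    have := h2 0 (by constructor <;> norm_num)
    rw [hasseDeriv_one, ← Polynomial.coeff_zero_eq_eval_zero, coeff_derivative] at this
    simpa using this
  -- positive `b`
  have hpos : ∀ b : ℝ, 0 ≤ b → b ≤ 1 → |P.eval b - P.coeff 1 * b| ≤ (K + 5) * L * b ^ 3 / β ^ 2 := by
    intro b hb0 hb1
    have hβ2pos : 0 < β ^ 2 := by positivity
    rw [le_div_iff₀ hβ2pos]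
    rcases le_total β b with hbβ | hbβ
    · have h4 : |P.eval b - P.coeff 1 * b| ≤ 4 * L * b := by
        calc |P.eval b - P.coeff 1 * b| ≤ |P.eval b| + |P.coeff 1 * b| := abs_sub _ _
          _ ≤ 2 * L * b + 2 * L * b := by
              refine add_le_add (hlin1 b ⟨hb0, hb1⟩) ?_
              rw [abs_mul, abs_of_nonneg hb0]
              exact mul_le_mul_of_nonneg_right hc1 hb0
          _ = 4 * L * b := by ring
      calc |P.eval b - P.coeff 1 * b| * β ^ 2 ≤ (4 * L * b) * b ^ 2 := by
            refine mul_le_mul h4 ?_ hβ2pos.le (by positivity)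
            exact pow_le_pow_left₀ hβ.le hbβ 2
        _ ≤ (K + 5) * L * b ^ 3 := by
            have : 0 ≤ L * b ^ 3 := by positivity
            nlinarith
    · -- the coefficients
      have hcoefS : ∀ j < n, |P.coeff (j + 1)| * β ^ j ≤ C₀ * (3 * L) := by
        intro j hj
        set S : ℝ[X] := ∑ i ∈ Finset.range n, C (P.coeff (i + 1) * β ^ i) * X ^ i with hS
        have hSc : S.coeff j = P.coeff (j + 1) * β ^ j := by
          rw [hS, finsetSum_coeff]
          simp only [coeff_C_mul_X_pow]
          rw [Finset.sum_ite_eq]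
          simp [hj]
        have hSd : S.degree < n := by
          rw [hS]
          refine lt_of_le_of_lt (Polynomial.degree_sum_le _ _) ?_
          rw [Finset.sup_lt_iff (by exact_mod_cast WithBot.bot_lt_coe n)]
          intro i hi
          refine lt_of_le_of_lt (Polynomial.degree_C_mul_X_pow_le _ _) ?_
          exact_mod_cast Finset.mem_range.mp hi
        have hSb : ∀ x ∈ Set.Icc (0:ℝ) 1, |S.eval x| ≤ 3 * L := by
          intro x hx
          have hSe : S.eval x = ∑ i ∈ Finset.range n, P.coeff (i + 1) * (β * x) ^ i := by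
            rw [hS, eval_finsetSum]
            refine Finset.sum_congr rfl fun i _ => ?_
            simp
            ring
          rcases eq_or_lt_of_le hx.1 with hx0 | hx0
          · rw [← hx0, ← Polynomial.coeff_zero_eq_eval_zero, hS, finsetSum_coeff]
            simp only [coeff_C_mul_X_pow]
            rw [Finset.sum_ite_eq]
            have : 0 ∈ Finset.range n := Finset.mem_range.mpr (by omega)
            simp only [this, if_true, zero_add, pow_zero, mul_one]
            linarith
          · set t := β * x with ht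
            have ht0 : 0 < t := by positivity
            have htβ : t ≤ β := by nlinarith [hx.2]
            have hsum : ∑ k ∈ Finset.range (n + 1), P.coeff k * t ^ k = S.eval x * t := by
              rw [Finset.sum_range_succ', hSe, Finset.sum_mul]
              rw [hodd 0 (by simp)]
              simp only [zero_mul, add_zero]
              refine Finset.sum_congr rfl fun i _ => by ring
            have hT := taylor_bound n P M (1 / 2) h3 t ⟨ht0.le, htβ.trans hβ2⟩
            have hPt := hlin t ⟨ht0.le, htβ.trans hβ2⟩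
            rw [hsum] at hT
            have hMt : M * t ^ (n + 1) ≤ t := by
              calc M * t ^ (n + 1) = (M * t ^ n) * t := by ring
                _ ≤ 1 * t := by
                    refine mul_le_mul_of_nonneg_right ?_ ht0.le
                    refine le_trans ?_ hMβ
                    exact mul_le_mul_of_nonneg_left (pow_le_pow_left₀ ht0.le htβ n) hM
                _ = t := one_mul t
            have h5 : |S.eval x * t| ≤ 3 * L * t := by
              have : |S.eval x * t| ≤ |P.eval t| + |P.eval t - S.eval x * t| := by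
                have h6 : S.eval x * t = P.eval t - (P.eval t - S.eval x * t) := by ring
                calc |S.eval x * t| = |P.eval t - (P.eval t - S.eval x * t)| := by rw [← h6]
                  _ ≤ _ := abs_sub _ _
              nlinarith
            rw [abs_mul, abs_of_pos ht0] at h5
            exact le_of_mul_le_mul_right h5 ht0
        have := hcoef S (3 * L) hSd hSb j
        rwa [hSc, abs_mul, abs_of_nonneg (by positivity : (0:ℝ) ≤ β ^ j)] at this
      have hT := taylor_bound n P M (1 / 2) h3 b ⟨hb0, hbβ.trans hβ2⟩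
      have hterm : ∀ k ∈ Finset.range (n + 1),
          |P.coeff k * b ^ k - if k = 1 then P.coeff 1 * b else 0| * β ^ 2 ≤
            C₀ * (3 * L) * b ^ 3 := by
        intro k hk
        have hR : 0 ≤ C₀ * (3 * L) * b ^ 3 := by positivity
        rcases Nat.even_or_odd k with hke | hko
        · have hk1 : k ≠ 1 := by rintro rfl; exact absurd hke (by decide)
          rw [hodd k hke, if_neg hk1]
          simpa using hR
        · by_cases hk1 : k = 1
          · subst hk1; simpa using hR
          · have hk3 : 3 ≤ k := by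
              rcases hko with ⟨m, hm⟩
              omega
            obtain ⟨j, rfl⟩ : ∃ j, k = j + 3 := ⟨k - 3, by omega⟩
            have hjn : j + 2 < n := by
              have := Finset.mem_range.mp hk
              omega
            rw [if_neg hk1, sub_zero, abs_mul, abs_of_nonneg (by positivity : (0:ℝ) ≤ b ^ (j + 3))]
            have h6 := hcoefS (j + 2) hjn
            calc |P.coeff (j + 3)| * b ^ (j + 3) * β ^ 2
                = |P.coeff (j + 3)| * b ^ 3 * (b ^ j * β ^ 2) := by ring
              _ ≤ |P.coeff (j + 3)| * b ^ 3 * (β ^ j * β ^ 2) := by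
                  refine mul_le_mul_of_nonneg_left ?_ (by positivity)
                  exact mul_le_mul_of_nonneg_right (pow_le_pow_left₀ hb0 hbβ j) (by positivity)
              _ = |P.coeff (j + 2 + 1)| * β ^ (j + 2) * b ^ 3 := by ring
              _ ≤ C₀ * (3 * L) * b ^ 3 := mul_le_mul_of_nonneg_right h6 (by positivity)
      have hsplit : P.eval b - P.coeff 1 * b =
          (P.eval b - ∑ k ∈ Finset.range (n + 1), P.coeff k * b ^ k) +
          ∑ k ∈ Finset.range (n + 1),
            (P.coeff k * b ^ k - if k = 1 then P.coeff 1 * b else 0) := by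
        rw [Finset.sum_sub_distrib, Finset.sum_ite_eq']
        have : 1 ∈ Finset.range (n + 1) := Finset.mem_range.mpr (by omega)
        simp only [this, if_true]
        ring
      rw [hsplit]
      calc |(P.eval b - ∑ k ∈ Finset.range (n + 1), P.coeff k * b ^ k) +
          ∑ k ∈ Finset.range (n + 1),
            (P.coeff k * b ^ k - if k = 1 then P.coeff 1 * b else 0)| * β ^ 2
          ≤ (|P.eval b - ∑ k ∈ Finset.range (n + 1), P.coeff k * b ^ k| +
            ∑ k ∈ Finset.range (n + 1),
            |P.coeff k * b ^ k - if k = 1 then P.coeff 1 * b else 0|) * β ^ 2 := by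
            refine mul_le_mul_of_nonneg_right ?_ hβ2pos.le
            exact (abs_add_le _ _).trans (add_le_add le_rfl (Finset.abs_sum_le_sum_abs _ _))
        _ = |P.eval b - ∑ k ∈ Finset.range (n + 1), P.coeff k * b ^ k| * β ^ 2 +
            ∑ k ∈ Finset.range (n + 1),
            |P.coeff k * b ^ k - if k = 1 then P.coeff 1 * b else 0| * β ^ 2 := by
            rw [add_mul, Finset.sum_mul]
        _ ≤ b ^ 3 + ∑ k ∈ Finset.range (n + 1), C₀ * (3 * L) * b ^ 3 := by
            refine add_le_add ?_ (Finset.sum_le_sum hterm)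
            obtain ⟨j, rfl⟩ : ∃ j, n = j + 2 := ⟨n - 2, by omega⟩
            calc |P.eval b - ∑ k ∈ Finset.range (j + 2 + 1), P.coeff k * b ^ k| * β ^ 2
                ≤ M * b ^ (j + 2 + 1) * β ^ 2 := mul_le_mul_of_nonneg_right hT hβ2pos.le
              _ = M * (b ^ j * β ^ 2) * b ^ 3 := by ring
              _ ≤ M * (β ^ j * β ^ 2) * b ^ 3 := by
                  refine mul_le_mul_of_nonneg_right ?_ (by positivity)
                  refine mul_le_mul_of_nonneg_left ?_ hM
                  exact mul_le_mul_of_nonneg_right (pow_le_pow_left₀ hb0 hbβ j) (by positivity)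
              _ = M * β ^ (j + 2) * b ^ 3 := by ring
              _ ≤ 1 * b ^ 3 := mul_le_mul_of_nonneg_right hMβ (by positivity)
              _ = b ^ 3 := one_mul _
        _ = b ^ 3 + K * L * b ^ 3 := by
            rw [Finset.sum_const, Finset.card_range, nsmul_eq_mul, hK]
            push_cast
            ring
        _ ≤ (K + 5) * L * b ^ 3 := by
            have : 0 ≤ b ^ 3 := by positivity
            nlinarith
  intro b hb
  rcases le_total 0 b with hb0 | hb0
  · rw [abs_of_nonneg hb0]
    exact hpos b hb0 (by rwa [abs_of_nonneg hb0] at hb)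
  · have hneg := hpos (-b) (by linarith) (by rwa [abs_of_nonpos hb0] at hb)
    have hPodd : P.eval (-b) = -P.eval b := by
      rw [eval_eq_sum_range, eval_eq_sum_range, ← Finset.sum_neg_distrib]
      refine Finset.sum_congr rfl fun k _ => ?_
      rcases Nat.even_or_odd k with hk | hk
      · simp [hodd k hk]
      · rw [hk.neg_pow]; ring
    rw [hPodd] at hneg
    rw [abs_of_nonpos hb0]
    have : P.eval b - P.coeff 1 * b = -(-P.eval b - P.coeff 1 * -b) := by ring
    rw [this, abs_neg]
    exact hneg

end E

end Vale.Agent.P111.HM
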