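import Vale.Agent.P111.HM.C

/-! Random fixing, random identification, the recursion inequality. -/

set_option linter.unusedSectionVars false

namespace Vale.Agent.P111.HM

open Finset Vale.Agent.P111

section F1

variable {I : Type} [Fintype I] [DecidableEq I]

/-- weights of a random set -/
noncomputable def bw (b : ℝ) (F : Finset I) : ℝ := b ^ #F * (1 - b) ^ #(Finset.univ \ F)

theorem bw_nonneg {b : ℝ} (hb : b ∈ Set.Icc (0:ℝ) 1) (F : Finset I) : 0 ≤ bw b F := by
  have h1 := hb.1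
  have h2 : 0 ≤ 1 - b := by linarith [hb.2]
  unfold bw
  positivity

open Polynomial in
theorem sum_bw_poly (b : ℝ) (S : Finset I) :
    ∑ F : Finset I, C (bw b F) * X ^ #(S \ F) = (C (1 - b) * X + C b) ^ #S := by
  have h1 := Finset.prod_add (fun _ : I => (C b : ℝ[X]))
    (fun i => if i ∈ S then C (1 - b) * X else C (1 - b)) Finset.univ
  have h2 : ∏ i : I, ((C b : ℝ[X]) + if i ∈ S then C (1 - b) * X else C (1 - b)) =
      (C (1 - b) * X + C b) ^ #S := by
    have h3 : ∀ i : I, ((C b : ℝ[X]) + if i ∈ S then C (1 - b) * X else C (1 - b)) =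
        if i ∈ S then C (1 - b) * X + C b else 1 := by
      intro i
      split_ifs
      · ring
      · rw [← C_add]
        simp
    simp only [h3]
    rw [Finset.prod_ite_mem, Finset.univ_inter, Finset.prod_const]
  rw [← h2, h1, Finset.powerset_univ]
  apply Finset.sum_congr rfl
  intro F _
  rw [Finset.prod_const, bw, C_mul, C_pow, C_pow]
  have h4 : ∏ i ∈ Finset.univ \ F, (if i ∈ S then (C (1 - b) : ℝ[X]) * X else C (1 - b)) =
      C (1 - b) ^ #(Finset.univ \ F) * X ^ #(S \ F) := by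
    have h5 : ∀ i : I, (if i ∈ S then (C (1 - b) : ℝ[X]) * X else C (1 - b)) =
        C (1 - b) * if i ∈ S then X else 1 := by
      intro i
      split_ifs <;> simp
    simp only [h5]
    rw [Finset.prod_mul_distrib, Finset.prod_const, Finset.prod_ite_mem, Finset.prod_const]
    congr 3
    ext i
    simp [and_comm]
  rw [h4]
  ring

theorem sum_bw (b : ℝ) (S : Finset I) (k : ℕ) :
    ∑ F : Finset I, bw b F * (if #(S \ F) = k then (1:ℝ) else 0) =
      ((#S).choose k : ℝ) * (1 - b) ^ k * b ^ (#S - k) := by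
  have h1 := congrArg (fun p : Polynomial ℝ => p.coeff k) (sum_bw_poly b S)
  simp only [Polynomial.finsetSum_coeff, Polynomial.coeff_C_mul, Polynomial.coeff_X_pow] at h1
  have h2 : ∀ F : Finset I, bw b F * (if #(S \ F) = k then (1:ℝ) else 0) =
      bw b F * if k = #(S \ F) then (1:ℝ) else 0 := by
    intro F
    congr 1
    simp only [eq_comm]
  simp only [h2]
  rw [h1, add_pow]
  simp only [Polynomial.finsetSum_coeff]
  have h3 : ∀ m : ℕ, ((Polynomial.C (1 - b) * Polynomial.X) ^ m * Polynomial.C b ^ (#S - m) *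
      ((#S).choose m : Polynomial ℝ)).coeff k =
      if m = k then ((#S).choose k : ℝ) * (1 - b) ^ k * b ^ (#S - k) else 0 := by
    intro m
    have h4 : (Polynomial.C (1 - b) * Polynomial.X) ^ m * Polynomial.C b ^ (#S - m) *
      ((#S).choose m : Polynomial ℝ) = Polynomial.C ((1 - b) ^ m * b ^ (#S - m) *
        ((#S).choose m : ℝ)) * Polynomial.X ^ m := by
      rw [mul_pow, ← Polynomial.C_pow, ← Polynomial.C_pow, ← Polynomial.C_eq_natCast]
      simp only [Polynomial.C_mul]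
      ring
    rw [h4, Polynomial.coeff_C_mul, Polynomial.coeff_X_pow]
    by_cases h : m = k
    · subst h
      simp
      ring
    · simp [h, Ne.symm h]
  simp only [h3]
  rw [Finset.sum_ite_eq']
  split_ifs with h
  · rfl
  · have : (#S).choose k = 0 := Nat.choose_eq_zero_of_lt (by
      simp only [Finset.mem_range] at h
      omega)
    rw [this]
    simp

theorem sum_bw_one (b : ℝ) : ∑ F : Finset I, bw b F = 1 := by
  have h := sum_bw b (∅ : Finset I) 0
  simpa using h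

variable {Z : Type*} [NormedAddCommGroup Z] [NormedSpace ℝ Z]

theorem random_fixing (u : (I → ℤˣ) → Z) (k : ℕ) (M b : ℝ) (hb : b ∈ Set.Icc (0:ℝ) 1)
    (h : ∀ F : Finset I, ‖∑ S : Finset I, (if #(S \ F) = k then (1:ℝ) else 0) • wc S u‖ ≤ M) :
    ‖∑ S : Finset I, (((#S).choose k : ℝ) * (1 - b) ^ k * b ^ (#S - k)) • wc S u‖ ≤ M := by
  have h1 : ∑ S : Finset I, (((#S).choose k : ℝ) * (1 - b) ^ k * b ^ (#S - k)) • wc S u =
      ∑ F : Finset I, bw b F • ∑ S : Finset I, (if #(S \ F) = k then (1:ℝ) else 0) • wc S u := by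
    simp only [Finset.smul_sum, smul_smul]
    rw [Finset.sum_comm]
    apply Finset.sum_congr rfl
    intro S _
    rw [← Finset.sum_smul, sum_bw]
  rw [h1]
  calc ‖∑ F : Finset I, bw b F • ∑ S : Finset I, (if #(S \ F) = k then (1:ℝ) else 0) • wc S u‖
      ≤ ∑ F : Finset I, ‖bw b F •
          ∑ S : Finset I, (if #(S \ F) = k then (1:ℝ) else 0) • wc S u‖ := norm_sum_le _ _
    _ ≤ ∑ F : Finset I, bw b F * M := by
        apply Finset.sum_le_sum
        intro F _
        rw [norm_smul, Real.norm_of_nonneg (bw_nonneg hb F)]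
        exact mul_le_mul_of_nonneg_left (h F) (bw_nonneg hb F)
    _ = M := by rw [← Finset.sum_mul, sum_bw_one, one_mul]

theorem random_identification (u : (I → ℤˣ) → Z) (n : ℕ) (hn : n ≠ 0) (M : ℝ)
    (h : ∀ c : I → Fin n, ‖∑ S : Finset I, (if #(oddset (fun i => some (c i)) S) = 1 then (1:ℝ)
      else 0) • wc S u‖ ≤ M) :
    ‖∑ S : Finset I, ((n : ℝ) * avg fun θ : Fin n → ℤˣ => ubar θ ^ (#S + 1)) • wc S u‖ ≤ M := by
  have : Nonempty (Fin n) := ⟨⟨0, Nat.pos_of_ne_zero hn⟩⟩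
  have h1 : ∑ S : Finset I, ((n : ℝ) * avg fun θ : Fin n → ℤˣ => ubar θ ^ (#S + 1)) • wc S u =
      avg fun c : I → Fin n => ∑ S : Finset I,
        (if #(oddset (fun i => some (c i)) S) = 1 then (1:ℝ) else 0) • wc S u := by
    rw [avg_sum]
    apply Finset.sum_congr rfl
    intro S _
    rw [← avg_tau_odd hn S]
    have h2 : (avg fun c : I → Fin n =>
        (if #(oddset (fun i => some (c i)) S) = 1 then (1:ℝ) else 0) • wc S u) =
        (avg fun c : I → Fin n =>
          (if #(oddset (fun i => some (c i)) S) = 1 then (1:ℝ) else 0)) • wc S u := by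
      simp only [avg, smul_eq_mul, ← Finset.sum_smul, smul_smul]
    rw [h2]
    congr 1
    apply avg_congr
    intro c
    simp only [tau, oddset, Option.some_inj]
  rw [h1]
  refine (H1.norm_avg_le _).trans ?_
  have h3 : (avg fun c : I → Fin n => ‖∑ S : Finset I,
        (if #(oddset (fun i => some (c i)) S) = 1 then (1:ℝ) else 0) • wc S u‖) ≤
      avg fun _ : I → Fin n => M := avg_mono fun c => h c
  rwa [avg_const] at h3

end F1

section F2

variable {Z X : Type*} [NormedAddCommGroup Z] [NormedSpace ℝ Z] [NormedAddCommGroup X]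
  [NormedSpace ℝ X] {I : Type} [Fintype I] [DecidableEq I] {B : ℝ}
  {J : ((I → ℤˣ) → Z) →ₗ[ℝ] X}

theorem Cls.norm_wc_le (hJ : Cls B J) (S : Finset I) (u : (I → ℤˣ) → Z) :
    ‖wc S u‖ ≤ ‖J u‖ := by
  unfold wc
  refine (H1.norm_avg_le _).trans ?_
  have h1 : (avg fun ω : I → ℤˣ => ‖walsh S ω • u ω‖) ≤ avg fun _ : I → ℤˣ => ‖J u‖ := by
    apply avg_mono
    intro ω
    rw [norm_smul]
    have h2 : ‖walsh S ω‖ = 1 := by
      rcases walsh_eq_one_or S ω with h | h <;> rw [h] <;> simp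
    rw [h2, one_mul]
    exact hJ.eval ω u
  rwa [avg_const] at h1

/-- setting the coordinates in `F` to one -/
def phF (F : Finset I) : I → Option I := fun i => if i ∈ F then none else some i

theorem phF_eq (F : Finset I) (i j : I) : phF F i = some j ↔ i = j ∧ i ∉ F := by
  unfold phF
  by_cases h : i ∈ F
  · simp [h]
  · simp [h]

theorem oddset_phF (F S : Finset I) : oddset (phF F) S = S \ F := by
  ext j
  have h1 : (S.filter fun i => phF F i = some j) = if j ∈ S ∧ j ∉ F then {j} else ∅ := by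
    ext i
    rw [Finset.mem_filter, phF_eq]
    split_ifs with h
    · simp only [Finset.mem_singleton]
      constructor
      · rintro ⟨_, h3, _⟩
        exact h3
      · rintro rfl
        exact ⟨h.1, rfl, h.2⟩
    · simp only [Finset.notMem_empty, iff_false]
      rintro ⟨h2, h3, h4⟩
      subst h3
      exact h ⟨h2, h4⟩
  simp only [oddset, Finset.mem_filter, Finset.mem_univ, true_and, Finset.mem_sdiff]
  rw [h1]
  split_ifs with h <;> simp [h]

theorem walsh_neg_one (S : Finset I) : walsh S (-1 : I → ℤˣ) = (-1 : ℝ) ^ #S := by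
  simp [walsh]

/-- odd part -/
noncomputable def oddp (u : (I → ℤˣ) → Z) : (I → ℤˣ) → Z :=
  fun η => (1 / 2 : ℝ) • (u η - u (-1 * η))

theorem wc_oddp (u : (I → ℤˣ) → Z) (S : Finset I) :
    wc S (oddp u) = (if Even #S then (0:ℝ) else 1) • wc S u := by
  have h1 : wc S (oddp u) = (1 / 2 : ℝ) • (wc S u - wc S fun η => u (-1 * η)) := by
    unfold oddp wc
    rw [← avg_sub, ← avg_smul]
    apply avg_congr
    intro ω
    show walsh S ω • ((1 / 2 : ℝ) • (u ω - u (-1 * ω))) =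
      (1 / 2 : ℝ) • (walsh S ω • u ω - walsh S ω • u (-1 * ω))
    rw [smul_comm, smul_sub]
  rw [h1, wc_translate, walsh_neg_one]
  split_ifs with h
  · rw [h.neg_one_pow, one_smul, sub_self, smul_zero, zero_smul]
  · rw [Nat.not_even_iff_odd] at h
    rw [h.neg_one_pow, neg_smul, one_smul, sub_neg_eq_add, ← two_smul ℝ, smul_smul]
    norm_num

theorem Cls.norm_oddp_le (hJ : Cls B J) (u : (I → ℤˣ) → Z) : ‖J (oddp u)‖ ≤ ‖J u‖ := by
  have h1 : J (oddp u) = (1 / 2 : ℝ) • (J u - J fun η => u (-1 * η)) := by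
    rw [← map_sub, ← map_smul]
    rfl
  rw [h1, norm_smul]
  have h2 := norm_sub_le (J u) (J fun η => u (-1 * η))
  have h3 := hJ.trans (-1) u
  rw [Real.norm_of_nonneg (by norm_num)]
  linarith

/-- the polynomial of a function -/
noncomputable def pol (z : Z →L[ℝ] ℝ) (u : (I → ℤˣ) → Z) : Polynomial ℝ :=
  ∑ S : Finset I, Polynomial.C (z (wc S u)) * Polynomial.X ^ #S

theorem pol_coeff (z : Z →L[ℝ] ℝ) (u : (I → ℤˣ) → Z) (k : ℕ) :
    (pol z u).coeff k = ∑ S : Finset I, (if #S = k then (1:ℝ) else 0) * z (wc S u) := by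
  simp only [pol, Polynomial.finsetSum_coeff, Polynomial.coeff_C_mul, Polynomial.coeff_X_pow]
  apply Finset.sum_congr rfl
  intro S _
  by_cases h : #S = k
  · simp [h]
  · simp [h, Ne.symm h]

theorem pol_eval (z : Z →L[ℝ] ℝ) (u : (I → ℤˣ) → Z) (b : ℝ) :
    (pol z u).eval b = ∑ S : Finset I, b ^ #S * z (wc S u) := by
  simp only [pol, Polynomial.eval_finsetSum, Polynomial.eval_mul, Polynomial.eval_C,
    Polynomial.eval_pow, Polynomial.eval_X]
  apply Finset.sum_congr rfl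
  intro S _
  ring

theorem pol_hasse (z : Z →L[ℝ] ℝ) (u : (I → ℤˣ) → Z) (k : ℕ) (b : ℝ) :
    (Polynomial.hasseDeriv k (pol z u)).eval b =
      ∑ S : Finset I, (((#S).choose k : ℝ) * b ^ (#S - k)) * z (wc S u) := by
  simp only [pol, map_sum, Polynomial.eval_finsetSum]
  apply Finset.sum_congr rfl
  intro S _
  rw [← Polynomial.smul_eq_C_mul, map_smul, ← Polynomial.monomial_one_right_eq_X_pow,
    Polynomial.hasseDeriv_monomial]
  simp only [mul_one, Polynomial.eval_smul, Polynomial.eval_monomial, smul_eq_mul]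
  ring

/-- bound from level functionals -/
theorem abs_hasse_le (z : Z →L[ℝ] ℝ) (hz : ‖z‖ ≤ 1) (u : (I → ℤˣ) → Z) (k : ℕ) (M b : ℝ)
    (hb : b ∈ Set.Icc (0:ℝ) 1)
    (h : ∀ F : Finset I, ‖∑ S : Finset I, (if #(S \ F) = k then (1:ℝ) else 0) • wc S u‖ ≤ M) :
    (1 - b) ^ k * |(Polynomial.hasseDeriv k (pol z u)).eval b| ≤ M := by
  have h1 := random_fixing u k M b hb h
  have h2 : (1 - b) ^ k * |(Polynomial.hasseDeriv k (pol z u)).eval b| =
      |z (∑ S : Finset I, (((#S).choose k : ℝ) * (1 - b) ^ k * b ^ (#S - k)) • wc S u)| := by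
    have h3 : 0 ≤ 1 - b := by linarith [hb.2]
    rw [pol_hasse, ← abs_of_nonneg (by positivity : 0 ≤ (1 - b) ^ k), ← abs_mul,
      Finset.mul_sum, map_sum]
    congr 1
    apply Finset.sum_congr rfl
    intro S _
    rw [map_smul, smul_eq_mul, abs_of_nonneg (by positivity : 0 ≤ (1 - b) ^ k)]
    ring
  rw [h2]
  have h4 := z.le_opNorm (∑ S : Finset I,
    (((#S).choose k : ℝ) * (1 - b) ^ k * b ^ (#S - k)) • wc S u)
  rw [Real.norm_eq_abs] at h4
  refine h4.trans ?_
  calc ‖z‖ * _ ≤ 1 * _ := mul_le_mul_of_nonneg_right hz (norm_nonneg _)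
    _ ≤ M := by rw [one_mul]; exact h1

theorem level_one_eq (u : (I → ℤˣ) → Z) :
    ∑ S : Finset I, (if #S = 1 then (1:ℝ) else 0) • wc S u = ∑ i, wc {i} u := by
  have h1 : ∀ S : Finset I, (if #S = 1 then (1:ℝ) else 0) • wc S u =
      if #S = 1 then wc S u else 0 := by
    intro S
    split_ifs <;> simp
  simp only [h1]
  rw [← Finset.sum_filter]
  symm
  apply Finset.sum_bij (fun (i : I) _ => ({i} : Finset I))
  · intro i _
    simp
  · intro i _ j _ h
    exact Finset.singleton_injective h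
  · intro S hS
    simp only [Finset.mem_filter, Finset.mem_univ, true_and] at hS
    obtain ⟨i, rfl⟩ := Finset.card_eq_one.mp hS
    exact ⟨i, Finset.mem_univ i, rfl⟩
  · intro i _
    rfl

/-- the recursion inequality for normalised odd functions -/
theorem recursion_odd {n : ℕ} {Cn : ℝ} (hCn : 1 ≤ Cn)
    (hpoly : ∀ (P : Polynomial ℝ) (L M β : ℝ), 1 ≤ L →
      0 < β → β ≤ 1 / 2 → 0 ≤ M → M * β ^ n ≤ 1 → (∀ k, Even k → P.coeff k = 0) →
      (∀ b ∈ Set.Icc (0:ℝ) 1, |P.eval b| ≤ 1) →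
      (∀ b ∈ Set.Icc (0:ℝ) (1 / 2), |(Polynomial.hasseDeriv 1 P).eval b| ≤ 2 * L) →
      (∀ b ∈ Set.Icc (0:ℝ) (1 / 2), |(Polynomial.hasseDeriv (n + 1) P).eval b| ≤ M) →
      ∀ b : ℝ, |b| ≤ 1 → |P.eval b - P.coeff 1 * b| ≤ Cn * L * |b| ^ 3 / β ^ 2)
    {N N' : ℕ} (hN' : N' ≠ 0) {L L' M β : ℝ} (hL : 1 ≤ L) (hβ : 0 < β) (hβ2 : β ≤ 1 / 2)
    (hM : 0 ≤ M) (hMβ : 2 ^ (n + 1) * M * β ^ n ≤ 1)
    (h1 : Lin B Z X N L) (h2 : Lin B Z X N' L')
    (h3 : ∀ (I : Type) [Fintype I] [DecidableEq I] (J : ((I → ℤˣ) → Z) →ₗ[ℝ] X), Cls B J →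
      Fintype.card I ≤ N → ∀ u : (I → ℤˣ) → Z,
      ‖∑ S : Finset I, (if #S = n + 1 then (1:ℝ) else 0) • wc S u‖ ≤ M * ‖J u‖)
    (hL' : 0 ≤ L') (hJ : Cls B J) (hcard : Fintype.card I ≤ N) (v : (I → ℤˣ) → Z)
    (hv : ‖J v‖ ≤ 1) (hodd : ∀ S : Finset I, Even #S → wc S v = 0) :
    ‖∑ i, wc {i} v‖ ≤ L' + 3 * Cn * L / (N' * β ^ 2) := by
  obtain ⟨z, hz1, hz2⟩ := exists_dual_vector'' ℝ (∑ i, wc {i} v)
  set P := pol z v with hP
  have hPodd : ∀ k, Even k → P.coeff k = 0 := by
    intro k hk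
    rw [hP, pol_coeff]
    apply Finset.sum_eq_zero
    intro S _
    split_ifs with h
    · rw [hodd S (h ▸ hk)]
      simp
    · simp
  have hP1 : P.coeff 1 = ‖∑ i, wc {i} v‖ := by
    have e1 : P.coeff 1 = z (∑ i, wc {i} v) := by
      rw [← level_one_eq, map_sum, hP, pol_coeff]
      apply Finset.sum_congr rfl
      intro S _
      rw [map_smul, smul_eq_mul]
    rw [e1, hz2]
    rfl
  -- level bounds for restrictions
  have hlev0 : ∀ F : Finset I, ‖∑ S : Finset I, (if #(S \ F) = 0 then (1:ℝ) else 0) • wc S v‖ ≤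
      1 := by
    intro F
    obtain ⟨I'', _, _, J'', u'', hc, hn, _, _, hk⟩ := hJ.closure (phF F) v
    have e1 := hk 0
    simp only [oddset_phF] at e1
    rw [← e1]
    have e2 : ∑ S : Finset I'', (if #S = 0 then (1:ℝ) else 0) • wc S u'' = wc ∅ u'' := by
      rw [Finset.sum_eq_single ∅]
      · simp
      · intro S _ hS
        rw [if_neg, zero_smul]
        rwa [Finset.card_eq_zero]
      · intro h; exact absurd (Finset.mem_univ _) h
    rw [e2]
    exact (hc.norm_wc_le ∅ u'').trans (hn.trans hv)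
  have hlev1 : ∀ F : Finset I, ‖∑ S : Finset I, (if #(S \ F) = 1 then (1:ℝ) else 0) • wc S v‖ ≤
      L := by
    intro F
    obtain ⟨I'', _, _, J'', u'', hc, hn, hcard1, _, hk⟩ := hJ.closure (phF F) v
    have e1 := hk 1
    simp only [oddset_phF] at e1
    rw [← e1, level_one_eq]
    refine (h1 I'' J'' hc (hcard1.trans hcard) u'').trans ?_
    have : ‖J'' u''‖ ≤ 1 := hn.trans hv
    nlinarith [norm_nonneg (J'' u'')]
  have hlevn : ∀ F : Finset I,
      ‖∑ S : Finset I, (if #(S \ F) = n + 1 then (1:ℝ) else 0) • wc S v‖ ≤ M := by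
    intro F
    obtain ⟨I'', _, _, J'', u'', hc, hn, hcard1, _, hk⟩ := hJ.closure (phF F) v
    have e1 := hk (n + 1)
    simp only [oddset_phF] at e1
    rw [← e1]
    refine (h3 I'' J'' hc (hcard1.trans hcard) u'').trans ?_
    have : ‖J'' u''‖ ≤ 1 := hn.trans hv
    nlinarith [norm_nonneg (J'' u'')]
  have hdiff := hpoly P L (2 ^ (n + 1) * M) β hL hβ hβ2 (by positivity) hMβ hPodd
    (by
      intro b hb
      have e1 := abs_hasse_le z hz1 v 0 1 b hb hlev0
      simpa [hP] using e1)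
    (by
      intro b hb
      have hb' : b ∈ Set.Icc (0:ℝ) 1 := ⟨hb.1, by linarith [hb.2]⟩
      have e1 := abs_hasse_le z hz1 v 1 L b hb' hlev1
      rw [← hP, pow_one] at e1
      have e2 : 1 / 2 ≤ 1 - b := by linarith [hb.2]
      have e3 := abs_nonneg ((Polynomial.hasseDeriv 1 P).eval b)
      nlinarith)
    (by
      intro b hb
      have hb' : b ∈ Set.Icc (0:ℝ) 1 := ⟨hb.1, by linarith [hb.2]⟩
      have e1 := abs_hasse_le z hz1 v (n + 1) M b hb' hlevn
      rw [← hP] at e1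
      have e2 : (1 / 2 : ℝ) ^ (n + 1) ≤ (1 - b) ^ (n + 1) := by
        have : 1 / 2 ≤ 1 - b := by linarith [hb.2]
        gcongr
      have e3 := abs_nonneg ((Polynomial.hasseDeriv (n + 1) P).eval b)
      have e4 : (1 / 2 : ℝ) ^ (n + 1) * |(Polynomial.hasseDeriv (n + 1) P).eval b| ≤ M :=
        (mul_le_mul_of_nonneg_right e2 e3).trans e1
      have e5 : (2 : ℝ) ^ (n + 1) * (1 / 2) ^ (n + 1) = 1 := by
        rw [← mul_pow]
        norm_num
      calc |(Polynomial.hasseDeriv (n + 1) P).eval b|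
          = 2 ^ (n + 1) * ((1 / 2 : ℝ) ^ (n + 1) * |(Polynomial.hasseDeriv (n + 1) P).eval b|) := by
            rw [← mul_assoc, e5, one_mul]
        _ ≤ 2 ^ (n + 1) * M := by gcongr)
  -- identification
  have hident := random_identification v N' hN' L' (by
    intro c
    obtain ⟨I'', _, _, J'', u'', hc, hn, _, hcard2, hk⟩ := hJ.closure (fun i => some (c i)) v
    have e1 := hk 1
    rw [← e1, level_one_eq]
    rw [Fintype.card_fin] at hcard2
    refine (h2 I'' J'' hc hcard2 u'').trans ?_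
    have : ‖J'' u''‖ ≤ 1 := hn.trans hv
    nlinarith [norm_nonneg (J'' u'')])
  set a := P.coeff 1 with ha
  have hN0 : (0:ℝ) < N' := by exact_mod_cast Nat.pos_of_ne_zero hN'
  have e1 : |(N' : ℝ) * avg fun θ : Fin N' → ℤˣ => ubar θ * P.eval (ubar θ)| ≤ L' := by
    have e2 : (N' : ℝ) * (avg fun θ : Fin N' → ℤˣ => ubar θ * P.eval (ubar θ)) =
        z (∑ S : Finset I, ((N' : ℝ) * avg fun θ : Fin N' → ℤˣ => ubar θ ^ (#S + 1)) • wc S v) := by
      rw [map_sum]
      have e3 : ∀ θ : Fin N' → ℤˣ, ubar θ * P.eval (ubar θ) =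
          ∑ S : Finset I, z (wc S v) * ubar θ ^ (#S + 1) := by
        intro θ
        rw [hP, pol_eval, Finset.mul_sum]
        apply Finset.sum_congr rfl
        intro S _
        rw [pow_succ]
        ring
      simp only [e3]
      rw [avg_sum, Finset.mul_sum]
      apply Finset.sum_congr rfl
      intro S _
      rw [map_smul, smul_eq_mul, avg_mul_left]
      ring
    rw [e2]
    have e4 := z.le_opNorm (∑ S : Finset I,
      ((N' : ℝ) * avg fun θ : Fin N' → ℤˣ => ubar θ ^ (#S + 1)) • wc S v)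
    rw [Real.norm_eq_abs] at e4
    refine e4.trans ?_
    calc ‖z‖ * _ ≤ 1 * _ := mul_le_mul_of_nonneg_right hz1 (norm_nonneg _)
      _ ≤ L' := by rw [one_mul]; exact hident
  have e5 : a = (N' : ℝ) * (avg fun θ : Fin N' → ℤˣ => ubar θ * P.eval (ubar θ)) -
      (N' : ℝ) * avg fun θ : Fin N' → ℤˣ => ubar θ * (P.eval (ubar θ) - a * ubar θ) := by
    have e6 : (avg fun θ : Fin N' → ℤˣ => ubar θ * (P.eval (ubar θ) - a * ubar θ)) =
        (avg fun θ : Fin N' → ℤˣ => ubar θ * P.eval (ubar θ)) - a * (1 / N') := by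
      rw [← avg_ubar_sq hN', ← avg_mul_left, ← avg_sub]
      apply avg_congr
      intro θ
      ring
    rw [e6]
    field_simp
    ring
  have e7 : |(N' : ℝ) * avg fun θ : Fin N' → ℤˣ => ubar θ * (P.eval (ubar θ) - a * ubar θ)| ≤
      3 * Cn * L / (N' * β ^ 2) := by
    rw [abs_mul, abs_of_pos hN0]
    have e8 : |avg fun θ : Fin N' → ℤˣ => ubar θ * (P.eval (ubar θ) - a * ubar θ)| ≤
        (Cn * L / β ^ 2) * (3 / (N' : ℝ) ^ 2) := by
      refine (abs_avg_le _).trans ?_
      have e9 : (avg fun θ : Fin N' → ℤˣ => |ubar θ * (P.eval (ubar θ) - a * ubar θ)|) ≤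
          avg fun θ : Fin N' → ℤˣ => (Cn * L / β ^ 2) * ubar θ ^ 4 := by
        apply avg_mono
        intro θ
        rw [abs_mul]
        have e10 := hdiff (ubar θ) (abs_ubar_le θ)
        calc |ubar θ| * |P.eval (ubar θ) - a * ubar θ|
            ≤ |ubar θ| * (Cn * L * |ubar θ| ^ 3 / β ^ 2) :=
              mul_le_mul_of_nonneg_left e10 (abs_nonneg _)
          _ = (Cn * L / β ^ 2) * |ubar θ| ^ 4 := by ring
          _ = (Cn * L / β ^ 2) * ubar θ ^ 4 := by
              congr 1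
              rw [← abs_pow, abs_of_nonneg (by positivity)]
      refine e9.trans ?_
      rw [avg_mul_left]
      have e11 := avg_ubar_four_le hN'
      have e12 : 0 ≤ Cn * L / β ^ 2 := by positivity
      exact mul_le_mul_of_nonneg_left e11 e12
    calc (N' : ℝ) * _ ≤ (N' : ℝ) * ((Cn * L / β ^ 2) * (3 / (N' : ℝ) ^ 2)) := by gcongr
      _ = 3 * Cn * L / (N' * β ^ 2) := by field_simp
  rw [← hP1]
  have e13 := (abs_le.mp e1).2
  have e14 := (abs_le.mp e7).1
  linarith

/-- the recursion inequality -/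
theorem recursion {n : ℕ} {Cn : ℝ} (hCn : 1 ≤ Cn)
    (hpoly : ∀ (P : Polynomial ℝ) (L M β : ℝ), 1 ≤ L →
      0 < β → β ≤ 1 / 2 → 0 ≤ M → M * β ^ n ≤ 1 → (∀ k, Even k → P.coeff k = 0) →
      (∀ b ∈ Set.Icc (0:ℝ) 1, |P.eval b| ≤ 1) →
      (∀ b ∈ Set.Icc (0:ℝ) (1 / 2), |(Polynomial.hasseDeriv 1 P).eval b| ≤ 2 * L) →
      (∀ b ∈ Set.Icc (0:ℝ) (1 / 2), |(Polynomial.hasseDeriv (n + 1) P).eval b| ≤ M) →
      ∀ b : ℝ, |b| ≤ 1 → |P.eval b - P.coeff 1 * b| ≤ Cn * L * |b| ^ 3 / β ^ 2)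
    {N N' : ℕ} (hN' : N' ≠ 0) {L L' M β : ℝ} (hL : 1 ≤ L) (hβ : 0 < β) (hβ2 : β ≤ 1 / 2)
    (hM : 0 ≤ M) (hMβ : 2 ^ (n + 1) * M * β ^ n ≤ 1)
    (h1 : Lin B Z X N L) (h2 : Lin B Z X N' L')
    (h3 : ∀ (I : Type) [Fintype I] [DecidableEq I] (J : ((I → ℤˣ) → Z) →ₗ[ℝ] X), Cls B J →
      Fintype.card I ≤ N → ∀ u : (I → ℤˣ) → Z,
      ‖∑ S : Finset I, (if #S = n + 1 then (1:ℝ) else 0) • wc S u‖ ≤ M * ‖J u‖)
    (hL' : 0 ≤ L') : Lin B Z X N (L' + 3 * Cn * L / (N' * β ^ 2)) := by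
  intro I _ _ J hJ hcard u
  have hbd0 : 0 ≤ L' + 3 * Cn * L / (N' * β ^ 2) := by positivity
  have hsum : ∑ i, wc {i} (oddp u) = ∑ i, wc {i} u := by
    apply Finset.sum_congr rfl
    intro i _
    rw [wc_oddp]
    simp
  have hno := hJ.norm_oddp_le u
  rw [← hsum]
  refine le_trans ?_ (mul_le_mul_of_nonneg_left hno hbd0)
  set w := oddp u with hw
  have hwodd : ∀ S : Finset I, Even #S → wc S w = 0 := by
    intro S hS
    rw [hw, wc_oddp, if_pos hS, zero_smul]
  rcases eq_or_lt_of_le (norm_nonneg (J w)) with h0 | h0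
  · have e1 : ∀ i, wc {i} w = 0 := by
      intro i
      have := hJ.norm_wc_le {i} w
      rw [← h0] at this
      exact norm_le_zero_iff.mp this
    simp [e1, ← h0]
  · set a := ‖J w‖ with ha
    have e1 := recursion_odd hCn hpoly hN' hL hβ hβ2 hM hMβ h1 h2 h3 hL' hJ hcard (a⁻¹ • w)
      (by
        rw [map_smul, norm_smul, Real.norm_of_nonneg (by positivity), ← ha,
          inv_mul_cancel₀ h0.ne'])
      (by
        intro S hS
        have : wc S (a⁻¹ • w) = a⁻¹ • wc S w := by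
          unfold wc
          rw [← avg_smul]
          apply avg_congr
          intro ω
          rw [Pi.smul_apply, smul_comm]
        rw [this, hwodd S hS, smul_zero])
    have e2 : ∀ i, wc {i} (a⁻¹ • w) = a⁻¹ • wc {i} w := by
      intro i
      unfold wc
      rw [← avg_smul]
      apply avg_congr
      intro ω
      rw [Pi.smul_apply, smul_comm]
    simp only [e2] at e1
    rw [← Finset.smul_sum, norm_smul, Real.norm_of_nonneg (by positivity), inv_mul_le_iff₀ h0] at e1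
    rw [mul_comm]
    exact e1

end F2

end Vale.Agent.P111.HM
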