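import Vale.Agent.P111.HM.B
import Vale.Agent.P111.HM.E
import Vale.Agent.P111.HM.D
import Vale.Agent.P111.HM.F

/-! Iteration and Theorem 1. -/

set_option linter.unusedSectionVars false

namespace Vale.Agent.P111.HM

open Finset Vale.Agent.P111

section G1

universe v w

variable {Z : Type v} {X : Type w} [NormedAddCommGroup Z] [NormedSpace ℝ Z]
    [NormedAddCommGroup X] [NormedSpace ℝ X]

theorem Lin.mono {B : ℝ} {N N' : ℕ} {L L' : ℝ} (h : Lin B Z X N L) (hN : N' ≤ N) (hL : L ≤ L') :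
    Lin B Z X N' L' := by
  intro I _ _ J hJ hc u
  exact (h I J hJ (hc.trans hN) u).trans (mul_le_mul_of_nonneg_right hL (norm_nonneg _))

theorem lin_trivial (B : ℝ) (N : ℕ) : Lin B Z X N N := by
  intro I _ _ J hJ hc u
  calc ‖∑ i, wc {i} u‖ ≤ ∑ i : I, ‖wc {i} u‖ := norm_sum_le _ _
    _ ≤ ∑ _i : I, ‖J u‖ := Finset.sum_le_sum fun i _ => hJ.norm_wc_le {i} u
    _ = Fintype.card I * ‖J u‖ := by simp
    _ ≤ N * ‖J u‖ := by
        have : (Fintype.card I : ℝ) ≤ N := by exact_mod_cast hc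
        gcongr

theorem lin_absorb {B : ℝ} {N : ℕ} {L' θ : ℝ} (hL' : 1 ≤ L')
    (hθ : 0 ≤ θ) (hθ2 : θ ≤ 1 / 2) (h : ∀ L : ℝ, 1 ≤ L → Lin B Z X N L → Lin B Z X N (L' + θ * L)) :
    Lin B Z X N (L' * (1 + 2 * θ)) := by
  have h1θ : 0 < 1 - θ := by linarith
  have hstart : Lin B Z X N (L' / (1 - θ) + θ ^ 0 * N) := by
    refine (lin_trivial B N).mono le_rfl ?_
    have : 0 ≤ L' / (1 - θ) := by positivity
    simp only [pow_zero, one_mul]
    linarith
  have hge : 1 ≤ L' / (1 - θ) := by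
    rw [le_div_iff₀ h1θ]
    linarith
  have key : ∀ j : ℕ, Lin B Z X N (L' / (1 - θ) + θ ^ j * N) := by
    intro j
    induction j with
    | zero => exact hstart
    | succ j ih =>
      have h2 : 0 ≤ θ ^ j * (N : ℝ) := by positivity
      have h3 := h _ (by linarith) ih
      refine h3.mono le_rfl (le_of_eq ?_)
      field_simp
      ring
  have hlim : Lin B Z X N (L' / (1 - θ)) := by
    intro I _ _ J hJ hc u
    have ht : Filter.Tendsto (fun j : ℕ => (L' / (1 - θ) + θ ^ j * N) * ‖J u‖) Filter.atTop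
        (nhds ((L' / (1 - θ) + 0 * N) * ‖J u‖)) := by
      have h4 := tendsto_pow_atTop_nhds_zero_of_lt_one hθ (by linarith : θ < 1)
      exact (((h4.mul_const (N : ℝ)).const_add _).mul_const _)
    have h5 := ge_of_tendsto' ht fun j => key j I J hJ hc u
    simpa using h5
  refine hlim.mono le_rfl ?_
  rw [div_le_iff₀ h1θ]
  nlinarith [mul_nonneg hθ (by linarith : 0 ≤ 1 - 2 * θ)]

end G1

section G2

universe v w

/-- the choice of `n` and `D` -/
theorem exists_nD (q : ℝ) (hq : 2 ≤ q) : ∃ n D : ℕ, 2 ≤ n ∧ 1 ≤ D ∧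
    2 * ((1 / 2 - 1 / q) + (n + 1) / D) * ((n + 1) / n) < 1 := by
  obtain ⟨n, hn⟩ := exists_nat_gt (q + 2)
  have hn0 : (0:ℝ) < n := by linarith
  have hn2 : 2 ≤ n := by
    have : (2:ℝ) ≤ n := by linarith
    exact_mod_cast this
  obtain ⟨D, hD⟩ := exists_nat_gt (2 * ((n : ℝ) + 1) * ((n + 1) / n) * q + 1)
  have hq0 : 0 < q := by linarith
  have hD1 : (1:ℝ) < D := by
    have : 0 ≤ 2 * ((n : ℝ) + 1) * ((n + 1) / n) * q := by positivity
    linarith
  refine ⟨n, D, hn2, by exact_mod_cast hD1.le, ?_⟩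
  have hD0 : (0:ℝ) < D := by linarith
  have e1 : 2 * (((n : ℝ) + 1) / D) * ((n + 1) / n) < 1 / q := by
    rw [lt_div_iff₀ hq0]
    have e3 : 2 * (((n : ℝ) + 1) / D) * ((n + 1) / n) * q =
      (2 * ((n : ℝ) + 1) * ((n + 1) / n) * q) / D := by ring
    rw [e3, div_lt_one hD0]
    linarith
  have e2 : 2 * (1 / 2 - 1 / q) * (((n : ℝ) + 1) / n) ≤ 1 - 1 / q := by
    have e4 : ((n : ℝ) + 1) / n = 1 + 1 / n := by field_simp
    rw [e4]
    have e5 : 1 / (n : ℝ) ≤ 1 / q := one_div_le_one_div_of_le hq0 (by linarith)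
    have e6 : 0 ≤ 1 / 2 - 1 / q := by
      have : 1 / q ≤ 1 / 2 := one_div_le_one_div_of_le (by norm_num) hq
      linarith
    have e7 : 0 < 1 / q := by positivity
    have e8 : 0 < 1 / (n : ℝ) := by positivity
    nlinarith
  calc 2 * ((1 / 2 - 1 / q) + ((n : ℝ) + 1) / D) * ((n + 1) / n)
      = 2 * (1 / 2 - 1 / q) * (((n : ℝ) + 1) / n) + 2 * (((n : ℝ) + 1) / D) * ((n + 1) / n) := by
        ring
    _ < (1 - 1 / q) + 1 / q := by linarith
    _ = 1 := by ring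

/-- arithmetic of the step -/
theorem step_arith {n : ℕ} (hn : 2 ≤ n) {c1 σ Cn : ℝ} (hc1 : 1 ≤ c1) (hσ : 0 ≤ σ) (hCn : 1 ≤ Cn)
    {L : ℕ} (hL : 1 ≤ L) : ∃ β : ℝ, 0 < β ∧ β ≤ 1 / 2 ∧
      2 ^ (n + 1) * (c1 * ((2 : ℝ) ^ L) ^ σ) ^ (n + 1) * β ^ n ≤ 1 ∧
      ∀ Λ : ℝ, 0 ≤ Λ → 3 * Cn * Λ / (((2 ^ (L - 1) : ℕ) : ℝ) * β ^ 2) ≤
        (6 * Cn * (2 * c1) ^ (2 * (((n : ℝ) + 1) / n))) *
          ((2 : ℝ) ^ (2 * σ * (((n : ℝ) + 1) / n) - 1)) ^ L * Λ := by
  set x : ℝ := (2 : ℝ) ^ L with hx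
  have hx1 : 1 ≤ x := one_le_pow₀ (by norm_num)
  have hx0 : 0 < x := by linarith
  have hn0 : (0:ℝ) < n := by
    have : (0:ℕ) < n := by omega
    exact_mod_cast this
  set t : ℝ := 2 * c1 * x ^ σ with ht
  have hxσ : 1 ≤ x ^ σ := Real.one_le_rpow hx1 hσ
  have ht2 : 2 ≤ t := by nlinarith
  have ht0 : 0 < t := by linarith
  set y : ℝ := t ^ (((n : ℝ) + 1) / n) with hy
  have hy0 : 0 < y := Real.rpow_pos_of_pos ht0 _
  have hy2 : 2 ≤ y := by
    have h1 : (1:ℝ) ≤ ((n : ℝ) + 1) / n := by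
      rw [le_div_iff₀ hn0]; linarith
    calc (2:ℝ) ≤ t := ht2
      _ = t ^ (1:ℝ) := (Real.rpow_one t).symm
      _ ≤ y := Real.rpow_le_rpow_of_exponent_le (by linarith) h1
  have hyn : y ^ n = t ^ (n + 1) := by
    rw [hy, ← Real.rpow_natCast (t ^ (((n : ℝ) + 1) / n)) n, ← Real.rpow_mul ht0.le]
    have : ((n : ℝ) + 1) / n * (n : ℝ) = ((n + 1 : ℕ) : ℝ) := by
      push_cast
      field_simp
    rw [this, Real.rpow_natCast]
  refine ⟨y⁻¹, inv_pos.mpr hy0, ?_, ?_, ?_⟩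
  · rw [one_div]
    exact inv_anti₀ (by norm_num) hy2
  · have h1 : 2 ^ (n + 1) * (c1 * x ^ σ) ^ (n + 1) = t ^ (n + 1) := by
      rw [← mul_pow, ht]
      congr 1
      ring
    rw [h1, inv_pow, hyn]
    exact (mul_inv_cancel₀ (by positivity)).le
  · intro Λ hΛ
    have h2 : ((2 ^ (L - 1) : ℕ) : ℝ) = x / 2 := by
      push_cast
      rw [hx, eq_div_iff (by norm_num), ← pow_succ]
      congr 1
      omega
    have h3 : y ^ 2 = (2 * c1) ^ (2 * (((n : ℝ) + 1) / n)) * x ^ (2 * σ * (((n : ℝ) + 1) / n)) := by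
      rw [hy, ← Real.rpow_natCast (t ^ (((n : ℝ) + 1) / n)) 2, ← Real.rpow_mul ht0.le, ht,
        Real.mul_rpow (by linarith) (by positivity), ← Real.rpow_mul hx0.le]
      congr 2
      · push_cast; ring
      · push_cast; ring
    have h4 : ((2 : ℝ) ^ (2 * σ * (((n : ℝ) + 1) / n) - 1)) ^ L =
        x ^ (2 * σ * (((n : ℝ) + 1) / n)) / x := by
      rw [← Real.rpow_natCast _ L, ← Real.rpow_mul (by norm_num), mul_comm,
        Real.rpow_mul (by norm_num), Real.rpow_natCast, ← hx, Real.rpow_sub hx0, Real.rpow_one]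
    rw [h2, h4, inv_pow]
    refine le_of_eq ?_
    have h5 : 3 * Cn * Λ / (x / 2 * (y ^ 2)⁻¹) = 6 * Cn * Λ * y ^ 2 / x := by
      field_simp
      ring
    rw [h5, h3]
    ring

/-- One step of the recursion, with constants. -/
theorem step_exists (q C B b : ℝ) (hq : 2 ≤ q) (hC : 0 ≤ C) (hB : 1 ≤ B) (hb : 1 ≤ b) :
    ∃ c r : ℝ, 0 < c ∧ 0 < r ∧ r < 1 ∧
    ∀ (Z : Type v) [NormedAddCommGroup Z] [NormedSpace ℝ Z] (X : Type w) [NormedAddCommGroup X]
      [NormedSpace ℝ X], LevelBd b Z → CotypeWith q C X → ∀ (L : ℕ), 1 ≤ L → ∀ L' Λ : ℝ,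
      0 ≤ L' → 1 ≤ Λ → Lin B Z X (2 ^ (L - 1)) L' → Lin B Z X (2 ^ L) Λ →
      Lin B Z X (2 ^ L) (L' + c * r ^ L * Λ) := by
  obtain ⟨n, D, hn, hD, hnD⟩ := exists_nD q hq
  obtain ⟨Cn, hCn, hpoly⟩ := poly_lemma n hn
  obtain ⟨A, hA, hML⟩ := ml_of_cotype.{w} q C hq hC
  set s : ℝ := 1 / 2 - 1 / q with hs
  have hs0 : 0 ≤ s := by
    have : 1 / q ≤ 1 / 2 := one_div_le_one_div_of_le (by norm_num) hq
    linarith
  have hD0 : (0:ℝ) < D := by exact_mod_cast hD
  set σ : ℝ := s + (n + 1) / D with hσ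
  have hσ0 : 0 ≤ σ := by positivity
  set c1 : ℝ := Real.exp 1 * A * (2 * 5 ^ D * (2 * B) * b) with hc1
  have he : 1 ≤ Real.exp 1 := Real.one_le_exp (by norm_num)
  have hc1' : 1 ≤ c1 := by
    have h5 : (1:ℝ) ≤ 5 ^ D := one_le_pow₀ (by norm_num)
    have e1 : 1 ≤ Real.exp 1 * A := one_le_mul_of_one_le_of_one_le he hA
    have e2 : 1 ≤ 2 * 5 ^ D * (2 * B) := by nlinarith
    exact one_le_mul_of_one_le_of_one_le e1 (one_le_mul_of_one_le_of_one_le e2 hb)
  refine ⟨6 * Cn * (2 * c1) ^ (2 * (((n : ℝ) + 1) / n)),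
    (2 : ℝ) ^ (2 * σ * (((n : ℝ) + 1) / n) - 1), by positivity, by positivity, ?_, ?_⟩
  · apply Real.rpow_lt_one_of_one_lt_of_neg (by norm_num)
    linarith
  · intro Z _ _ X _ _ hZ hX L hL L' Λ hL' hΛ h1 h2
    obtain ⟨β, hβ0, hβ2, hMβ, hθ⟩ := step_arith (n := n) hn hc1' hσ0 hCn hL
    set x : ℝ := (2 : ℝ) ^ L with hx
    have hx1 : 1 ≤ x := one_le_pow₀ (by norm_num)
    have hx0 : 0 < x := by linarith
    have hrec := recursion (Z := Z) (X := X) (B := B) hCn hpoly (N := 2 ^ L) (N' := 2 ^ (L - 1))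
      (by positivity) hΛ hβ0 hβ2 (M := (c1 * x ^ σ) ^ (n + 1)) (by positivity) hMβ h2 h1 (by
        intro I _ _ J hJ hcard u
        have h3 := level_bound (k := n + 1) (R := 2 * B * x ^ (((n : ℝ) + 1) / D)) (D := D) hA
          (hML X hX) hb hZ hB (by omega) hD (by
            have e1 : 1 ≤ x ^ (((n : ℝ) + 1) / D) := Real.one_le_rpow hx1 (by positivity)
            nlinarith) (by
            have e1 : (x ^ (((n : ℝ) + 1) / D)) ^ D = 2 ^ ((n + 1) * L) := by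
              rw [← Real.rpow_natCast _ D, ← Real.rpow_mul hx0.le]
              have e2 : ((n : ℝ) + 1) / D * (D : ℝ) = ((n + 1 : ℕ) : ℝ) := by
                push_cast
                field_simp
              rw [e2, Real.rpow_natCast, hx, ← pow_mul, mul_comm]
            rw [mul_pow, e1]
            have e3 : B ≤ (2 * B) ^ D := by
              calc B ≤ 2 * B := by linarith
                _ = (2 * B) ^ 1 := (pow_one _).symm
                _ ≤ (2 * B) ^ D := pow_le_pow_right₀ (by linarith) hD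
            gcongr) hJ hcard u
        refine h3.trans (le_of_eq ?_)
        congr 2
        rw [hc1, hσ, Real.rpow_add hx0]
        ring) hL'
    exact hrec.mono le_rfl (by
      have := hθ Λ (by linarith)
      linarith)

/-- Theorem 1. -/
theorem main (q C B b : ℝ) (hq : 2 ≤ q) (hC : 0 ≤ C) (hB : 1 ≤ B) (hb : 1 ≤ b) : ∃ L : ℝ, 1 ≤ L ∧
    ∀ (Z : Type v) [NormedAddCommGroup Z] [NormedSpace ℝ Z] (X : Type w) [NormedAddCommGroup X]
      [NormedSpace ℝ X], LevelBd b Z → CotypeWith q C X → ∀ N : ℕ, Lin B Z X N L := by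
  obtain ⟨c, r, hc, hr0, hr1, hstep⟩ := step_exists.{v, w} q C B b hq hC hB hb
  -- choose the starting level
  obtain ⟨L0, hL0⟩ : ∃ L0 : ℕ, ∀ L, L0 ≤ L → c * r ^ L ≤ 1 / 2 := by
    have h1 := (tendsto_pow_atTop_nhds_zero_of_lt_one hr0.le hr1).const_mul c
    rw [mul_zero] at h1
    have h2 := h1.eventually (ge_mem_nhds (by norm_num : (0:ℝ) < 1 / 2))
    exact Filter.eventually_atTop.mp h2
  set F : ℝ := (2 : ℝ) ^ L0 * Real.exp (2 * c / (1 - r)) with hF
  have h1r : 0 < 1 - r := by linarith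
  have hF1 : 1 ≤ F := by
    have e1 : (1:ℝ) ≤ 2 ^ L0 := one_le_pow₀ (by norm_num)
    have e2 : 1 ≤ Real.exp (2 * c / (1 - r)) := Real.one_le_exp (by positivity)
    exact one_le_mul_of_one_le_of_one_le e1 e2
  refine ⟨F, hF1, ?_⟩
  intro Z _ _ X _ _ hZ hX N
  have key : ∀ j : ℕ, Lin B Z X (2 ^ (L0 + j))
      ((2 : ℝ) ^ L0 * Real.exp (∑ i ∈ Finset.range j, 2 * (c * r ^ (L0 + i + 1)))) := by
    intro j
    induction j with
    | zero =>
      have := lin_trivial (Z := Z) (X := X) B (2 ^ L0)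
      simpa using this
    | succ j ih =>
      set L' : ℝ := (2 : ℝ) ^ L0 * Real.exp (∑ i ∈ Finset.range j, 2 * (c * r ^ (L0 + i + 1)))
        with hL'
      have hL'1 : 1 ≤ L' := by
        have e1 : (1:ℝ) ≤ 2 ^ L0 := one_le_pow₀ (by norm_num)
        have e2 : 1 ≤ Real.exp (∑ i ∈ Finset.range j, 2 * (c * r ^ (L0 + i + 1))) :=
          Real.one_le_exp (Finset.sum_nonneg fun i _ => by positivity)
        exact one_le_mul_of_one_le_of_one_le e1 e2
      have hθ := hL0 (L0 + j + 1) (by omega)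
      have h3 := lin_absorb (Z := Z) (X := X) (B := B) (N := 2 ^ (L0 + j + 1)) hL'1
        (θ := c * r ^ (L0 + j + 1)) (by positivity) hθ (by
          intro Λ hΛ hlin
          exact hstep Z X hZ hX (L0 + j + 1) (by omega) L' Λ (by linarith) hΛ
            (by simpa using ih) hlin)
      have e0 : L0 + (j + 1) = L0 + j + 1 := by ring
      rw [e0]
      refine h3.mono le_rfl ?_
      have e5 : (2 : ℝ) ^ L0 * Real.exp (∑ i ∈ Finset.range (j + 1),
          2 * (c * r ^ (L0 + i + 1))) = L' * Real.exp (2 * (c * r ^ (L0 + j + 1))) := by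
        rw [Finset.sum_range_succ, Real.exp_add, hL']
        ring
      rw [e5]
      have e3 := Real.add_one_le_exp (2 * (c * r ^ (L0 + j + 1)))
      have e4 : 0 ≤ L' := by linarith
      nlinarith
  have hsum : ∀ j : ℕ, ∑ i ∈ Finset.range j, 2 * (c * r ^ (L0 + i + 1)) ≤ 2 * c / (1 - r) := by
    intro j
    have e1 : ∀ i, 2 * (c * r ^ (L0 + i + 1)) ≤ 2 * c * r ^ i := by
      intro i
      have : r ^ (L0 + i + 1) ≤ r ^ i := pow_le_pow_of_le_one hr0.le hr1.le (by omega)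
      nlinarith
    calc ∑ i ∈ Finset.range j, 2 * (c * r ^ (L0 + i + 1))
        ≤ ∑ i ∈ Finset.range j, 2 * c * r ^ i := Finset.sum_le_sum fun i _ => e1 i
      _ = 2 * c * ∑ i ∈ Finset.range j, r ^ i := by rw [Finset.mul_sum]
      _ ≤ 2 * c * (1 / (1 - r)) := by
          have : ∑ i ∈ Finset.range j, r ^ i ≤ 1 / (1 - r) := by
            rw [geom_sum_eq (by linarith : r ≠ 1)]
            rw [← neg_div_neg_eq]
            have h0 : 0 ≤ r ^ j := by positivity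
            rw [neg_sub, neg_sub]
            gcongr
            linarith
          gcongr
      _ = 2 * c / (1 - r) := by ring
  have hN : N ≤ 2 ^ (L0 + N) := by
    calc N ≤ 2 ^ N := Nat.lt_two_pow_self.le
      _ ≤ 2 ^ (L0 + N) := Nat.pow_le_pow_right (by norm_num) (by omega)
  refine (key N).mono hN ?_
  rw [hF]
  have := Real.exp_le_exp.mpr (hsum N)
  gcongr

end G2

end Vale.Agent.P111.HM
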