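import Vale.Agent.P111.HM.G

/-! Consequences for translation and modulation invariant norms on scalar functions. -/

namespace Vale.Agent.P111.HM

open Finset Vale.Agent.P111

/-- Invariance under translations and under multiplication by Walsh functions. -/
structure Inv {Z X : Type*} [NormedAddCommGroup Z] [NormedSpace ℝ Z] [NormedAddCommGroup X]
    [NormedSpace ℝ X] {I : Type} [Fintype I] [DecidableEq I] (J : ((I → ℤˣ) → Z) →ₗ[ℝ] X) :
    Prop where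
  trans : ∀ (g : I → ℤˣ) (u : (I → ℤˣ) → Z), ‖J (fun η => u (g * η))‖ ≤ ‖J u‖
  modul : ∀ (S : Finset I) (u : (I → ℤˣ) → Z), ‖J (fun η => walsh S η • u η)‖ ≤ ‖J u‖

section scalar

variable {X : Type*} [NormedAddCommGroup X] [NormedSpace ℝ X] {I : Type} [Fintype I]
  [DecidableEq I] {J : ((I → ℤˣ) → ℝ) →ₗ[ℝ] X}

theorem dl_eq_smul (z : ℝ) : (dl z : (I → ℤˣ) → ℝ) = z • dl (1:ℝ) := by
  funext η
  simp only [dl, Pi.smul_apply, smul_eq_mul]
  split_ifs <;> simp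

/-- Normalisation. -/
theorem Inv.cls (hJ : Inv J) (h0 : ‖J (dl (1:ℝ))‖ ≠ 0) :
    Cls 1 (‖J (dl (1:ℝ))‖⁻¹ • J) := by
  have hpos : 0 < ‖J (dl (1:ℝ))‖ := lt_of_le_of_ne (norm_nonneg _) (Ne.symm h0)
  have hval : ∀ z : ℝ, ‖(‖J (dl (1:ℝ))‖⁻¹ • J) (dl z)‖ = ‖z‖ := by
    intro z
    rw [dl_eq_smul z, map_smul, LinearMap.smul_apply, norm_smul, norm_smul, norm_inv, norm_norm,
      inv_mul_cancel₀ h0, mul_one]
  refine ⟨fun g u => ?_, fun S u => ?_, fun z => (hval z).ge, fun z => ?_⟩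
  · rw [LinearMap.smul_apply, LinearMap.smul_apply, norm_smul, norm_smul]
    exact mul_le_mul_of_nonneg_left (hJ.trans g u) (norm_nonneg _)
  · rw [LinearMap.smul_apply, LinearMap.smul_apply, norm_smul, norm_smul]
    exact mul_le_mul_of_nonneg_left (hJ.modul S u) (norm_nonneg _)
  · rw [one_mul]
    exact (hval z).le

/-- Restriction to a subgroup is a contraction. -/
theorem Inv.indicator (hJ : Inv J) (H : Subgroup (I → ℤˣ)) [DecidablePred (· ∈ H)]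
    (u : (I → ℤˣ) → ℝ) : ‖J (fun η => if η ∈ H then u η else 0)‖ ≤ ‖J u‖ := by
  set ind : (I → ℤˣ) → ℝ := fun η => if η ∈ H then (1:ℝ) else 0 with hind
  have h1 : (fun η : I → ℤˣ => if η ∈ H then u η else 0) =
      ∑ S : Finset I, wc S ind • fun η => walsh S η • u η := by
    funext η
    simp only [Finset.sum_apply, Pi.smul_apply, smul_smul]
    rw [← Finset.sum_smul]
    have h2 := sum_walsh_smul_wc ind η
    have h3 : ∑ S : Finset I, wc S ind * walsh S η = ind η := by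
      rw [← h2]
      apply Finset.sum_congr rfl
      intro S _
      rw [smul_eq_mul, mul_comm]
    rw [h3, hind]
    simp only
    split_ifs <;> simp
  rw [h1, map_sum]
  have h4 : ∑ S : Finset I, wc S ind = 1 := by
    have h2 := sum_walsh_smul_wc ind 1
    simp only [walsh_one, one_smul] at h2
    rw [h2, hind]
    simp [one_mem H]
  calc ‖∑ S : Finset I, J (wc S ind • fun η => walsh S η • u η)‖
      ≤ ∑ S : Finset I, ‖J (wc S ind • fun η => walsh S η • u η)‖ := norm_sum_le _ _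
    _ ≤ ∑ S : Finset I, wc S ind * ‖J u‖ := by
        apply Finset.sum_le_sum
        intro S _
        rw [map_smul, norm_smul, Real.norm_of_nonneg (wc_indicator_nonneg H S)]
        exact mul_le_mul_of_nonneg_left (hJ.modul S u) (wc_indicator_nonneg H S)
    _ = ‖J u‖ := by rw [← Finset.sum_mul, h4, one_mul]

/-- Averages of translates. -/
theorem Inv.avg_trans (hJ : Inv J) {Ω : Type*} [Fintype Ω] [Nonempty Ω] (g : Ω → I → ℤˣ)
    (u : (I → ℤˣ) → ℝ) : ‖J (fun η => avg fun ω => u (g ω * η))‖ ≤ ‖J u‖ := by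
  have h1 : (fun η : I → ℤˣ => avg fun ω => u (g ω * η)) =
      avg fun ω => fun η => u (g ω * η) := by
    funext η
    simp only [avg, Pi.smul_apply, Finset.sum_apply]
  rw [h1, map_avg]
  have h2 : ‖avg fun ω => J (fun η => u (g ω * η))‖ ≤
      avg fun ω => ‖J (fun η => u (g ω * η))‖ := by
    rw [avg, avg, norm_smul, Real.norm_of_nonneg (by positivity), smul_eq_mul]
    exact mul_le_mul_of_nonneg_left (norm_sum_le _ _) (by positivity)
  refine h2.trans ?_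
  have h3 : (avg fun _ : Ω => ‖J u‖) = ‖J u‖ := avg_const _
  rw [← h3]
  exact avg_mono fun ω => hJ.trans (g ω) u

theorem Inv.eval (hJ : Inv J) (x : I → ℤˣ) (u : (I → ℤˣ) → ℝ) :
    |u x| * ‖J (dl (1:ℝ))‖ ≤ ‖J u‖ := by
  classical
  have h1 := hJ.indicator (⊥ : Subgroup (I → ℤˣ)) (fun η => u (x * η))
  have h2 : (fun η : I → ℤˣ => if η ∈ (⊥ : Subgroup (I → ℤˣ)) then u (x * η) else 0) =
      u x • dl (1:ℝ) := by
    funext η
    simp only [Subgroup.mem_bot, dl, Pi.smul_apply, smul_eq_mul]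
    split_ifs with h
    · rw [h, mul_one, mul_one]
    · rw [mul_zero]
  rw [h2, map_smul, norm_smul, Real.norm_eq_abs] at h1
  exact h1.trans (hJ.trans x u)

theorem Inv.wc_le (hJ : Inv J) (S : Finset I) (u : (I → ℤˣ) → ℝ) :
    |wc S u| * ‖J (dl (1:ℝ))‖ ≤ ‖J u‖ := by
  have h2 : |wc S u| ≤ avg fun η : I → ℤˣ => |u η| := by
    refine (abs_avg_le _).trans (avg_mono fun η => ?_)
    have h4 : |walsh S η| = 1 := by
      rw [walsh, Finset.abs_prod]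
      exact Finset.prod_eq_one fun i _ => abs_sg _
    rw [smul_eq_mul, abs_mul, h4, one_mul]
  calc |wc S u| * ‖J (dl (1:ℝ))‖ ≤ (avg fun η : I → ℤˣ => |u η|) * ‖J (dl (1:ℝ))‖ :=
        mul_le_mul_of_nonneg_right h2 (norm_nonneg _)
    _ = avg fun η : I → ℤˣ => |u η| * ‖J (dl (1:ℝ))‖ := (avg_mul_right _ _).symm
    _ ≤ avg fun _ : I → ℤˣ => ‖J u‖ := avg_mono fun η => hJ.eval η u
    _ = ‖J u‖ := avg_const _

end scalar

section two

universe w

/-- The scalar form of Theorem 1, with signs. -/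
theorem scalar_main (q C : ℝ) (hq : 2 ≤ q) (hC : 0 ≤ C) : ∃ L : ℝ, 1 ≤ L ∧
    ∀ (X : Type w) [NormedAddCommGroup X] [NormedSpace ℝ X], CotypeWith q C X →
    ∀ (I : Type) [Fintype I] [DecidableEq I] (J : ((I → ℤˣ) → ℝ) →ₗ[ℝ] X), Inv J →
    ∀ (θ : I → ℤˣ) (u : (I → ℤˣ) → ℝ),
      |∑ i, sg (θ i) * wc {i} u| * ‖J (dl (1:ℝ))‖ ≤ L * ‖J u‖ := by
  obtain ⟨L, hL1, hL⟩ := main.{0, w} q C 1 1 hq hC le_rfl le_rfl
  refine ⟨L, hL1, ?_⟩
  intro X _ _ hX I _ _ J hJ θ u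
  have hsum : ∑ i, sg (θ i) * wc {i} u = ∑ i, wc {i} (fun η => u (θ * η)) := by
    refine Finset.sum_congr rfl fun i _ => ?_
    rw [wc_translate, walsh_singleton, smul_eq_mul]
  by_cases h0 : ‖J (dl (1:ℝ))‖ = 0
  · rw [h0, mul_zero]
    exact mul_nonneg (by linarith) (norm_nonneg _)
  have h1 := hL ℝ X levelBd_real hX (Fintype.card I) I _ (hJ.cls h0) le_rfl
    (fun η => u (θ * η))
  rw [LinearMap.smul_apply, norm_smul, norm_inv, norm_norm, Real.norm_eq_abs, ← hsum] at h1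
  have hpos : 0 < ‖J (dl (1:ℝ))‖ := lt_of_le_of_ne (norm_nonneg _) (Ne.symm h0)
  calc |∑ i, sg (θ i) * wc {i} u| * ‖J (dl (1:ℝ))‖
      ≤ L * (‖J (dl (1:ℝ))‖⁻¹ * ‖J (fun η => u (θ * η))‖) * ‖J (dl (1:ℝ))‖ :=
        mul_le_mul_of_nonneg_right h1 hpos.le
    _ = L * ‖J (fun η => u (θ * η))‖ := by field_simp
    _ ≤ L * ‖J u‖ := mul_le_mul_of_nonneg_left (hJ.trans θ u) (by linarith)

/-- Theorem 2. -/
theorem card_le {q C r C' L : ℝ} (hr : 2 ≤ r) (hC' : 0 ≤ C') (hL1 : 1 ≤ L)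
    (hL : ∀ (X : Type w) [NormedAddCommGroup X] [NormedSpace ℝ X], CotypeWith q C X →
      ∀ (I : Type) [Fintype I] [DecidableEq I] (J : ((I → ℤˣ) → ℝ) →ₗ[ℝ] X), Inv J →
      ∀ (θ : I → ℤˣ) (u : (I → ℤˣ) → ℝ),
        |∑ i, sg (θ i) * wc {i} u| * ‖J (dl (1:ℝ))‖ ≤ L * ‖J u‖)
    {X : Type w} [NormedAddCommGroup X] [NormedSpace ℝ X] (hX : CotypeWith q C X)
    (hX' : CotypeWith r C' (X →L[ℝ] ℝ)) {I : Type} [Fintype I] [DecidableEq I]
    {J : ((I → ℤˣ) → ℝ) →ₗ[ℝ] X} (hJ : Inv J) (P : X →ₗ[ℝ] ((I → ℤˣ) → ℝ))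
    (hPJ : ∀ u, P (J u) = u) (hJP : ∀ x, ‖J (P x)‖ ≤ ‖x‖) :
    (Fintype.card I : ℝ) ^ (1 / r) * ‖J (dl (1:ℝ))‖ ≤ C' * L * ‖J (fun _ => 1)‖ := by
  set ν : ℝ := ‖J (dl (1:ℝ))‖ with hν
  by_cases h0 : ν = 0
  · rw [h0, mul_zero]
    positivity
  have hν0 : 0 < ν := lt_of_le_of_ne (norm_nonneg _) (Ne.symm h0)
  have hr0 : 0 < r := by linarith
  let φ : I → X →L[ℝ] ℝ := fun i => LinearMap.mkContinuous
    { toFun := fun x => wc {i} (P x)
      map_add' := fun x y => by rw [map_add]; exact wc_add _ _ _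
      map_smul' := fun c x => by rw [map_smul, RingHom.id_apply]; exact wc_smul _ _ _ } ν⁻¹
    (fun x => by
      change |wc {i} (P x)| ≤ _
      have h1 := (hJ.wc_le {i} (P x)).trans (hJP x)
      rw [← div_eq_inv_mul, le_div_iff₀ hν0]
      exact h1)
  have hφ : ∀ i x, φ i x = wc {i} (P x) := fun _ _ => rfl
  have hsum : ∀ θ : I → ℤˣ, ‖∑ i, sg (θ i) • φ i‖ ≤ L / ν := by
    intro θ
    refine ContinuousLinearMap.opNorm_le_bound _ (by positivity) fun x => ?_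
    have h1 : (∑ i, sg (θ i) • φ i) x = ∑ i, sg (θ i) * wc {i} (P x) := by
      rw [_root_.sum_apply]
      refine Finset.sum_congr rfl fun i _ => ?_
      rw [_root_.smul_apply, hφ, smul_eq_mul]
    rw [h1, Real.norm_eq_abs, div_mul_eq_mul_div, le_div_iff₀ hν0]
    exact (hL X hX I J hJ θ (P x)).trans (mul_le_mul_of_nonneg_left (hJP x) (by linarith))
  have hlow : ∀ i, 1 ≤ ‖φ i‖ * ‖J (fun _ => 1)‖ := by
    intro i
    have h1 : φ i (J (walsh {i})) = 1 := by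
      rw [hφ, hPJ]
      have h2 := wc_walsh_smul (E := ℝ) {i} {i} (1:ℝ)
      rw [if_pos rfl] at h2
      simpa using h2
    have h3 : ‖J (walsh {i})‖ ≤ ‖J (fun _ => (1:ℝ))‖ := by
      have := hJ.modul {i} (fun _ => (1:ℝ))
      simpa using this
    calc (1:ℝ) = ‖φ i (J (walsh {i}))‖ := by rw [h1]; simp
      _ ≤ ‖φ i‖ * ‖J (walsh {i})‖ := (φ i).le_opNorm _
      _ ≤ _ := mul_le_mul_of_nonneg_left h3 (norm_nonneg _)
  set n := Fintype.card I with hn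
  let e : Fin n ≃ I := (Fintype.equivFin I).symm
  have hcot := hX' n fun k => φ (e k)
  have hR : (avg fun ε : Fin n → ℤˣ => ‖∑ k, sg (ε k) • φ (e k)‖ ^ 2) ^ (1 / 2 : ℝ) ≤ L / ν := by
    have h1 : ∀ ε : Fin n → ℤˣ, ‖∑ k, sg (ε k) • φ (e k)‖ ^ 2 ≤ (L / ν) ^ 2 := by
      intro ε
      have h2 : ∑ k, sg (ε k) • φ (e k) = ∑ i, sg (ε (e.symm i)) • φ i := by
        rw [← Equiv.sum_comp e]
        simp
      rw [h2]
      have := hsum fun i => ε (e.symm i)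
      gcongr
    have h3 : (avg fun ε : Fin n → ℤˣ => ‖∑ k, sg (ε k) • φ (e k)‖ ^ 2) ≤ (L / ν) ^ 2 := by
      calc _ ≤ avg fun _ : Fin n → ℤˣ => (L / ν) ^ 2 := avg_mono h1
        _ = _ := avg_const _
    rw [← Real.sqrt_eq_rpow]
    exact (Real.sqrt_le_sqrt h3).trans (le_of_eq (Real.sqrt_sq (by positivity)))
  rcases Nat.eq_zero_or_pos n with hn0 | hn0
  · rw [hn0, Nat.cast_zero, Real.zero_rpow (by positivity), zero_mul]
    positivity
  have hJ1 : 0 < ‖J (fun _ => 1)‖ := by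
    have h1 := hlow (e ⟨0, hn0⟩)
    by_contra hcon
    have : ‖J (fun _ => 1)‖ = 0 := le_antisymm (not_lt.mp hcon) (norm_nonneg _)
    rw [this, mul_zero] at h1
    linarith
  have hl : (n:ℝ) ^ (1 / r) * ‖J (fun _ => 1)‖⁻¹ ≤ (∑ k, ‖φ (e k)‖ ^ r) ^ (1 / r) := by
    have h1 : (n:ℝ) * (‖J (fun _ => 1)‖⁻¹) ^ r ≤ ∑ k : Fin n, ‖φ (e k)‖ ^ r := by
      calc (n:ℝ) * (‖J (fun _ => 1)‖⁻¹) ^ r = ∑ _k : Fin n, (‖J (fun _ => 1)‖⁻¹) ^ r := by
            rw [Finset.sum_const, Finset.card_univ, Fintype.card_fin, nsmul_eq_mul]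
        _ ≤ _ := by
            refine Finset.sum_le_sum fun k _ => ?_
            apply Real.rpow_le_rpow (by positivity) _ hr0.le
            rw [inv_le_iff_one_le_mul₀ hJ1]
            exact hlow (e k)
    calc (n:ℝ) ^ (1 / r) * ‖J (fun _ => 1)‖⁻¹ =
          ((n:ℝ) * (‖J (fun _ => 1)‖⁻¹) ^ r) ^ (1 / r) := by
          rw [Real.mul_rpow (by positivity) (by positivity), ← Real.rpow_mul (by positivity),
            mul_one_div_cancel hr0.ne', Real.rpow_one]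
      _ ≤ _ := Real.rpow_le_rpow (by positivity) h1 (by positivity)
  have hfin : (n:ℝ) ^ (1 / r) * ‖J (fun _ => 1)‖⁻¹ ≤ C' * (L / ν) :=
    hl.trans (hcot.trans (mul_le_mul_of_nonneg_left hR hC'))
  calc (n:ℝ) ^ (1 / r) * ν =
        ((n:ℝ) ^ (1 / r) * ‖J (fun _ => 1)‖⁻¹) * (ν * ‖J (fun _ => 1)‖) := by field_simp
    _ ≤ (C' * (L / ν)) * (ν * ‖J (fun _ => 1)‖) :=
        mul_le_mul_of_nonneg_right hfin (by positivity)
    _ = _ := by field_simp

/-- The cotype inequality for a family with uniformly bounded signed sums. -/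
theorem cotype_card {q C : ℝ} (hq : 2 ≤ q) (hC : 0 ≤ C) {Y : Type*} [NormedAddCommGroup Y]
    [NormedSpace ℝ Y] (hY : CotypeWith q C Y) {I : Type} [Fintype I] (y : I → Y) {a b : ℝ}
    (ha : 0 ≤ a) (hb : 0 ≤ b) (hlow : ∀ i, a ≤ ‖y i‖)
    (hup : ∀ θ : I → ℤˣ, ‖∑ i, sg (θ i) • y i‖ ≤ b) :
    (Fintype.card I : ℝ) ^ (1 / q) * a ≤ C * b := by
  have hq0 : 0 < q := by linarith
  set n := Fintype.card I with hn
  let e : Fin n ≃ I := (Fintype.equivFin I).symm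
  have hcot := hY n fun k => y (e k)
  have hR : (avg fun ε : Fin n → ℤˣ => ‖∑ k, sg (ε k) • y (e k)‖ ^ 2) ^ (1 / 2 : ℝ) ≤ b := by
    have h1 : ∀ ε : Fin n → ℤˣ, ‖∑ k, sg (ε k) • y (e k)‖ ^ 2 ≤ b ^ 2 := by
      intro ε
      have h2 : ∑ k, sg (ε k) • y (e k) = ∑ i, sg (ε (e.symm i)) • y i := by
        rw [← Equiv.sum_comp e]
        simp
      rw [h2]
      have := hup fun i => ε (e.symm i)
      gcongr
    have h3 : (avg fun ε : Fin n → ℤˣ => ‖∑ k, sg (ε k) • y (e k)‖ ^ 2) ≤ b ^ 2 := by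
      calc _ ≤ avg fun _ : Fin n → ℤˣ => b ^ 2 := avg_mono h1
        _ = _ := avg_const _
    rw [← Real.sqrt_eq_rpow]
    exact (Real.sqrt_le_sqrt h3).trans (le_of_eq (Real.sqrt_sq hb))
  have hl : (n:ℝ) ^ (1 / q) * a ≤ (∑ k, ‖y (e k)‖ ^ q) ^ (1 / q) := by
    have h1 : (n:ℝ) * a ^ q ≤ ∑ k : Fin n, ‖y (e k)‖ ^ q := by
      calc (n:ℝ) * a ^ q = ∑ _k : Fin n, a ^ q := by
            rw [Finset.sum_const, Finset.card_univ, Fintype.card_fin, nsmul_eq_mul]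
        _ ≤ _ := Finset.sum_le_sum fun k _ => Real.rpow_le_rpow ha (hlow (e k)) hq0.le
    calc (n:ℝ) ^ (1 / q) * a = ((n:ℝ) * a ^ q) ^ (1 / q) := by
          rw [Real.mul_rpow (by positivity) (by positivity), ← Real.rpow_mul ha,
            mul_one_div_cancel hq0.ne', Real.rpow_one]
      _ ≤ _ := Real.rpow_le_rpow (by positivity) h1 (by positivity)
  exact hl.trans (hcot.trans (mul_le_mul_of_nonneg_left hR hC))

end two

section dual

universe w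

variable {X : Type w} [NormedAddCommGroup X] [NormedSpace ℝ X] {I : Type} [Fintype I]
  [DecidableEq I] {J : ((I → ℤˣ) → ℝ) →ₗ[ℝ] X}

/-- point masses -/
def pt (x : I → ℤˣ) : (I → ℤˣ) → ℝ := fun η => if η = x then 1 else 0

theorem sum_pt (u : (I → ℤˣ) → ℝ) : ∑ x, u x • pt x = u := by
  funext η
  simp [pt]

theorem dl_one_ne_zero (P : X →ₗ[ℝ] ((I → ℤˣ) → ℝ)) (hPJ : ∀ u, P (J u) = u) :
    ‖J (dl (1:ℝ))‖ ≠ 0 := by
  intro h
  have h1 : J (dl (1:ℝ)) = 0 := norm_eq_zero.mp h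
  have h2 := hPJ (dl (1:ℝ))
  rw [h1, map_zero] at h2
  have h3 := congrFun h2 1
  simp [dl] at h3

theorem apply_le (hJ : Inv J) (P : X →ₗ[ℝ] ((I → ℤˣ) → ℝ)) (hPJ : ∀ u, P (J u) = u)
    (hJP : ∀ x, ‖J (P x)‖ ≤ ‖x‖) (η : I → ℤˣ) (x : X) :
    |P x η| ≤ ‖J (dl (1:ℝ))‖⁻¹ * ‖x‖ := by
  have hν0 : 0 < ‖J (dl (1:ℝ))‖ :=
    lt_of_le_of_ne (norm_nonneg _) (Ne.symm (dl_one_ne_zero P hPJ))
  rw [← div_eq_inv_mul, le_div_iff₀ hν0]
  exact (hJ.eval η (P x)).trans (hJP x)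

/-- The dual map. -/
noncomputable def Jd (hJ : Inv J) (P : X →ₗ[ℝ] ((I → ℤˣ) → ℝ)) (hPJ : ∀ u, P (J u) = u)
    (hJP : ∀ x, ‖J (P x)‖ ≤ ‖x‖) : ((I → ℤˣ) → ℝ) →ₗ[ℝ] (X →L[ℝ] ℝ) where
  toFun g := LinearMap.mkContinuous
    { toFun := fun x => avg fun η => g η * P x η
      map_add' := fun x y => by
        rw [← avg_add]
        exact avg_congr fun η => by rw [map_add, Pi.add_apply, mul_add]
      map_smul' := fun c x => by
        rw [RingHom.id_apply, smul_eq_mul, ← avg_mul_left]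
        exact avg_congr fun η => by rw [map_smul, Pi.smul_apply, smul_eq_mul]; ring }
    ((avg fun η => |g η|) * ‖J (dl (1:ℝ))‖⁻¹)
    (fun x => by
      change |avg fun η => g η * P x η| ≤ _
      rw [mul_assoc, ← avg_mul_right]
      refine (abs_avg_le _).trans (avg_mono fun η => ?_)
      rw [abs_mul]
      exact mul_le_mul_of_nonneg_left (apply_le hJ P hPJ hJP η x) (abs_nonneg _))
  map_add' g g' := by
    ext x
    change (avg fun η => (g + g') η * P x η) = (avg fun η => g η * P x η) +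
      avg fun η => g' η * P x η
    rw [← avg_add]
    exact avg_congr fun η => by rw [Pi.add_apply, add_mul]
  map_smul' c g := by
    ext x
    change (avg fun η => (c • g) η * P x η) = c * avg fun η => g η * P x η
    rw [← avg_mul_left]
    exact avg_congr fun η => by rw [Pi.smul_apply, smul_eq_mul, mul_assoc]

theorem Jd_apply (hJ : Inv J) (P : X →ₗ[ℝ] ((I → ℤˣ) → ℝ)) (hPJ : ∀ u, P (J u) = u)
    (hJP : ∀ x, ‖J (P x)‖ ≤ ‖x‖) (g : (I → ℤˣ) → ℝ) (x : X) :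
    Jd hJ P hPJ hJP g x = avg fun η => g η * P x η := rfl

theorem Jd_inv (hJ : Inv J) (P : X →ₗ[ℝ] ((I → ℤˣ) → ℝ)) (hPJ : ∀ u, P (J u) = u)
    (hJP : ∀ x, ‖J (P x)‖ ≤ ‖x‖) : Inv (Jd hJ P hPJ hJP) := by
  refine ⟨fun a g => ?_, fun S g => ?_⟩
  · refine ContinuousLinearMap.opNorm_le_bound _ (norm_nonneg _) fun x => ?_
    have h1 : Jd hJ P hPJ hJP (fun η => g (a * η)) x =
        Jd hJ P hPJ hJP g (J fun η => P x (a * η)) := by
      rw [Jd_apply, Jd_apply, hPJ,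
        ← avg_comp_equiv (Equiv.mulLeft a) (fun η => g η * P x (a * η))]
      refine avg_congr fun η => ?_
      simp only [Equiv.coe_mulLeft]
      have : a * (a * η) = η := by
        rw [← mul_assoc]
        funext i
        simp
      rw [this]
    rw [h1]
    exact ((Jd hJ P hPJ hJP g).le_opNorm _).trans
      (mul_le_mul_of_nonneg_left ((hJ.trans a (P x)).trans (hJP x)) (norm_nonneg _))
  · refine ContinuousLinearMap.opNorm_le_bound _ (norm_nonneg _) fun x => ?_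
    have h1 : Jd hJ P hPJ hJP (fun η => walsh S η • g η) x =
        Jd hJ P hPJ hJP g (J fun η => walsh S η • P x η) := by
      rw [Jd_apply, Jd_apply, hPJ]
      refine avg_congr fun η => ?_
      simp only [smul_eq_mul]
      ring
    rw [h1]
    exact ((Jd hJ P hPJ hJP g).le_opNorm _).trans
      (mul_le_mul_of_nonneg_left ((hJ.modul S (P x)).trans (hJP x)) (norm_nonneg _))

/-- Theorem 2, dual form. -/
theorem card_le' {q C r C' L : ℝ} (hq : 2 ≤ q) (hC : 0 ≤ C) (hL1 : 1 ≤ L)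
    (hL : ∀ (X : Type w) [NormedAddCommGroup X] [NormedSpace ℝ X], CotypeWith r C' X →
      ∀ (I : Type) [Fintype I] [DecidableEq I] (J : ((I → ℤˣ) → ℝ) →ₗ[ℝ] X), Inv J →
      ∀ (θ : I → ℤˣ) (u : (I → ℤˣ) → ℝ),
        |∑ i, sg (θ i) * wc {i} u| * ‖J (dl (1:ℝ))‖ ≤ L * ‖J u‖)
    (hX : CotypeWith q C X) (hX' : CotypeWith r C' (X →L[ℝ] ℝ))
    (hJ : Inv J) (P : X →ₗ[ℝ] ((I → ℤˣ) → ℝ))
    (hPJ : ∀ u, P (J u) = u) (hJP : ∀ x, ‖J (P x)‖ ≤ ‖x‖) :
    (Fintype.card I : ℝ) ^ (1 / q) * ‖J (fun _ => 1)‖ ≤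
      C * (L * (2 ^ Fintype.card I * ‖J (dl (1:ℝ))‖)) := by
  set ν : ℝ := ‖J (dl (1:ℝ))‖ with hν
  have hν0 : 0 < ν := lt_of_le_of_ne (norm_nonneg _) (Ne.symm (dl_one_ne_zero P hPJ))
  have hcard : (Fintype.card (I → ℤˣ) : ℝ) = 2 ^ Fintype.card I := by
    rw [Fintype.card_fun]
    simp
  have hdl : (2 ^ Fintype.card I : ℝ)⁻¹ ≤ ‖Jd hJ P hPJ hJP (dl (1:ℝ))‖ * ν := by
    have h1 : Jd hJ P hPJ hJP (dl (1:ℝ)) (J (dl (1:ℝ))) = (2 ^ Fintype.card I : ℝ)⁻¹ := by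
      rw [Jd_apply, hPJ, avg, hcard, smul_eq_mul]
      simp [dl]
    have h2 := (Jd hJ P hPJ hJP (dl (1:ℝ))).le_opNorm (J (dl (1:ℝ)))
    rw [h1, Real.norm_of_nonneg (by positivity)] at h2
    exact h2
  have hJd0 : 0 < ‖Jd hJ P hPJ hJP (dl (1:ℝ))‖ := by
    by_contra hcon
    have h1 : ‖Jd hJ P hPJ hJP (dl (1:ℝ))‖ = 0 := le_antisymm (not_lt.mp hcon) (norm_nonneg _)
    rw [h1, zero_mul] at hdl
    have : (0:ℝ) < (2 ^ Fintype.card I : ℝ)⁻¹ := by positivity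
    linarith
  apply cotype_card hq hC hX (fun i => J (walsh {i})) (norm_nonneg _) (by positivity)
  · intro i
    have h1 := hJ.modul {i} (walsh {i})
    have h2 : (fun η : I → ℤˣ => walsh {i} η • walsh {i} η) = fun _ => (1:ℝ) := by
      funext η
      rw [smul_eq_mul, walsh_mul_self]
    rwa [h2] at h1
  · intro θ
    set x0 : X := ∑ i, sg (θ i) • J (walsh {i}) with hx0
    obtain ⟨ψ, hψ1, hψ2⟩ := exists_dual_vector'' ℝ x0
    have hψ2' : ψ x0 = ‖x0‖ := by simpa using hψ2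
    set g : (I → ℤˣ) → ℝ := fun η => 2 ^ Fintype.card I * ψ (J (pt η)) with hg
    have hgu : ∀ u : (I → ℤˣ) → ℝ, ψ (J u) = avg fun η => g η * u η := by
      intro u
      conv_lhs => rw [← sum_pt u]
      rw [map_sum, map_sum, avg, hcard, smul_eq_mul, Finset.mul_sum]
      refine Finset.sum_congr rfl fun η _ => ?_
      rw [map_smul, map_smul, smul_eq_mul, hg]
      have : (2:ℝ) ^ Fintype.card I ≠ 0 := by positivity
      field_simp
    have hJdg : ‖Jd hJ P hPJ hJP g‖ ≤ 1 := by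
      refine ContinuousLinearMap.opNorm_le_bound _ zero_le_one fun x => ?_
      rw [Jd_apply, ← hgu, one_mul]
      calc ‖ψ (J (P x))‖ ≤ ‖ψ‖ * ‖J (P x)‖ := ψ.le_opNorm _
        _ ≤ 1 * ‖x‖ := mul_le_mul hψ1 (hJP x) (norm_nonneg _) zero_le_one
        _ = _ := one_mul _
    have h3 : ψ x0 = ∑ i, sg (θ i) * wc {i} g := by
      rw [hx0, map_sum]
      refine Finset.sum_congr rfl fun i _ => ?_
      rw [map_smul, smul_eq_mul, hgu]
      congr 1
      simp only [wc, smul_eq_mul]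
      exact avg_congr fun η => mul_comm _ _
    have h4 := hL (X →L[ℝ] ℝ) hX' I (Jd hJ P hPJ hJP) (Jd_inv hJ P hPJ hJP) θ g
    rw [← h3, hψ2', abs_of_nonneg (norm_nonneg _)] at h4
    have h5 : ‖x0‖ * ‖Jd hJ P hPJ hJP (dl (1:ℝ))‖ ≤ L :=
      h4.trans (by nlinarith)
    calc ‖x0‖ = ‖x0‖ * (2 ^ Fintype.card I * (2 ^ Fintype.card I : ℝ)⁻¹) := by
          rw [mul_inv_cancel₀ (by positivity), mul_one]
      _ ≤ ‖x0‖ * (2 ^ Fintype.card I * (‖Jd hJ P hPJ hJP (dl (1:ℝ))‖ * ν)) := by gcongr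
      _ = (‖x0‖ * ‖Jd hJ P hPJ hJP (dl (1:ℝ))‖) * (2 ^ Fintype.card I * ν) := by ring
      _ ≤ L * (2 ^ Fintype.card I * ν) := by gcongr

end dual

end Vale.Agent.P111.HM
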