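import Vale.Agent.P111.HM.H

/-! Theorem 2 for vector valued functions; blocks and Theorem 3 (exponential separation). -/

set_option linter.unusedSectionVars false

namespace Vale.Agent.P111.HM

open Finset Vale.Agent.P111

section vec

universe v w

/-- Theorem 1 with signs. -/
theorem signed_main (q C B b : ℝ) (hq : 2 ≤ q) (hC : 0 ≤ C) (hB : 1 ≤ B) (hb : 1 ≤ b) :
    ∃ L : ℝ, 1 ≤ L ∧ ∀ (Z : Type v) [NormedAddCommGroup Z] [NormedSpace ℝ Z] (X : Type w)
      [NormedAddCommGroup X] [NormedSpace ℝ X], LevelBd b Z → CotypeWith q C X →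
      ∀ (I : Type) [Fintype I] [DecidableEq I] (J : ((I → ℤˣ) → Z) →ₗ[ℝ] X), Cls B J →
      ∀ (θ : I → ℤˣ) (u : (I → ℤˣ) → Z), ‖∑ i, sg (θ i) • wc {i} u‖ ≤ L * ‖J u‖ := by
  obtain ⟨L, hL1, hL⟩ := main.{v, w} q C B b hq hC hB hb
  refine ⟨L, hL1, ?_⟩
  intro Z _ _ X _ _ hZ hX I _ _ J hJ θ u
  have hsum : ∑ i, sg (θ i) • wc {i} u = ∑ i, wc {i} (fun η => u (θ * η)) := by
    refine Finset.sum_congr rfl fun i _ => ?_
    rw [wc_translate, walsh_singleton]
  rw [hsum]
  exact (hL Z X hZ hX (Fintype.card I) I J hJ le_rfl _).trans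
    (mul_le_mul_of_nonneg_left (hJ.trans θ u) (by linarith))

/-- Theorem 2 for vector valued functions. -/
theorem card_le_vec {B L r C' K : ℝ} (hr : 2 ≤ r) (hC' : 0 ≤ C') (hL0 : 0 ≤ L) (hK : 0 ≤ K)
    {Z : Type v} [NormedAddCommGroup Z] [NormedSpace ℝ Z] {X : Type w}
    [NormedAddCommGroup X] [NormedSpace ℝ X] {I : Type} [Fintype I] [DecidableEq I]
    {J : ((I → ℤˣ) → Z) →ₗ[ℝ] X} (hJ : Cls B J)
    (hL : ∀ (θ : I → ℤˣ) (u : (I → ℤˣ) → Z), ‖∑ i, sg (θ i) • wc {i} u‖ ≤ L * ‖J u‖)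
    (hX' : CotypeWith r C' (X →L[ℝ] ℝ)) (P : X →ₗ[ℝ] ((I → ℤˣ) → Z))
    (hPJ : ∀ u, P (J u) = u) (hJP : ∀ x, ‖J (P x)‖ ≤ K * ‖x‖) (z : Z) :
    (Fintype.card I : ℝ) ^ (1 / r) * ‖z‖ ≤ C' * (L * K) * ‖J (fun _ => z)‖ := by
  by_cases h0 : ‖J (fun _ => z)‖ = 0
  · have h1 : J (fun _ => z) = 0 := norm_eq_zero.mp h0
    have h2 := hPJ (fun _ => z)
    rw [h1, map_zero] at h2
    have h3 := congrFun h2 1
    simp only [Pi.zero_apply] at h3
    rw [← h3, norm_zero, mul_zero]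
    positivity
  have hpos : 0 < ‖J (fun _ => z)‖ := lt_of_le_of_ne (norm_nonneg _) (Ne.symm h0)
  obtain ⟨ζ, hζ1, hζ2⟩ := exists_dual_vector'' ℝ z
  have hζ2' : ζ z = ‖z‖ := by simpa using hζ2
  let φ : I → X →L[ℝ] ℝ := fun i => LinearMap.mkContinuous
    { toFun := fun x => ζ (wc {i} (P x))
      map_add' := fun x y => by
        rw [map_add, ← map_add ζ]
        exact congrArg ζ (wc_add {i} (P x) (P y))
      map_smul' := fun c x => by
        rw [map_smul, RingHom.id_apply, ← map_smul ζ]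
        exact congrArg ζ (wc_smul {i} c (P x)) } K
    (fun x => by
      change ‖ζ (wc {i} (P x))‖ ≤ _
      calc ‖ζ (wc {i} (P x))‖ ≤ ‖ζ‖ * ‖wc {i} (P x)‖ := ζ.le_opNorm _
        _ ≤ 1 * ‖wc {i} (P x)‖ := mul_le_mul_of_nonneg_right hζ1 (norm_nonneg _)
        _ = ‖wc {i} (P x)‖ := one_mul _
        _ ≤ ‖J (P x)‖ := hJ.norm_wc_le {i} _
        _ ≤ K * ‖x‖ := hJP x)
  have hφ : ∀ i x, φ i x = ζ (wc {i} (P x)) := fun _ _ => rfl
  have hsum : ∀ θ : I → ℤˣ, ‖∑ i, sg (θ i) • φ i‖ ≤ L * K := by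
    intro θ
    refine ContinuousLinearMap.opNorm_le_bound _ (by positivity) fun x => ?_
    have h1 : (∑ i, sg (θ i) • φ i) x = ζ (∑ i, sg (θ i) • wc {i} (P x)) := by
      rw [_root_.sum_apply, map_sum]
      refine Finset.sum_congr rfl fun i _ => ?_
      rw [_root_.smul_apply, hφ, map_smul]
    rw [h1]
    calc ‖ζ (∑ i, sg (θ i) • wc {i} (P x))‖ ≤ ‖ζ‖ * ‖∑ i, sg (θ i) • wc {i} (P x)‖ :=
          ζ.le_opNorm _
      _ ≤ 1 * ‖∑ i, sg (θ i) • wc {i} (P x)‖ := mul_le_mul_of_nonneg_right hζ1 (norm_nonneg _)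
      _ = ‖∑ i, sg (θ i) • wc {i} (P x)‖ := one_mul _
      _ ≤ L * ‖J (P x)‖ := hL θ (P x)
      _ ≤ L * (K * ‖x‖) := mul_le_mul_of_nonneg_left (hJP x) hL0
      _ = _ := by ring
  have hlow : ∀ i, ‖z‖ / ‖J (fun _ => z)‖ ≤ ‖φ i‖ := by
    intro i
    rw [div_le_iff₀ hpos]
    have h1 : φ i (J fun η => walsh {i} η • z) = ‖z‖ := by
      rw [hφ, hPJ, wc_walsh_smul, if_pos rfl, hζ2']
    calc ‖z‖ = ‖φ i (J fun η => walsh {i} η • z)‖ := by rw [h1]; simp
      _ ≤ ‖φ i‖ * ‖J fun η => walsh {i} η • z‖ := (φ i).le_opNorm _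
      _ ≤ _ := mul_le_mul_of_nonneg_left (hJ.modul {i} (fun _ => z)) (norm_nonneg _)
  have h1 := cotype_card hr hC' hX' φ (by positivity) (by positivity) hlow hsum
  calc (Fintype.card I : ℝ) ^ (1 / r) * ‖z‖
      = ((Fintype.card I : ℝ) ^ (1 / r) * (‖z‖ / ‖J (fun _ => z)‖)) * ‖J (fun _ => z)‖ := by
        field_simp
    _ ≤ C' * (L * K) * ‖J (fun _ => z)‖ := mul_le_mul_of_nonneg_right h1 hpos.le

end vec

section block

variable {I : Type} [Fintype I] [DecidableEq I]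

/-- The sign vectors supported by `A`. -/
def spt (A : Finset I) : Subgroup (I → ℤˣ) where
  carrier := {η | ∀ j, j ∉ A → η j = 1}
  mul_mem' := fun {a b} ha hb j hj => by
    rw [Pi.mul_apply, ha j hj, hb j hj, mul_one]
  one_mem' := fun _ _ => rfl
  inv_mem' := fun {a} ha j hj => by
    rw [Pi.inv_apply, ha j hj, inv_one]

theorem mem_spt {A : Finset I} {η : I → ℤˣ} : η ∈ spt A ↔ ∀ j, j ∉ A → η j = 1 := Iff.rfl

instance (A : Finset I) : DecidablePred (· ∈ spt A) := fun η =>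
  decidable_of_iff (∀ j, j ∉ A → η j = 1) Iff.rfl

/-- Extension by one. -/
def ext1 {B : Finset I} (χ : {x // x ∈ B} → ℤˣ) : I → ℤˣ :=
  fun i => if h : i ∈ B then χ ⟨i, h⟩ else 1

/-- Coordinate projection. -/
def prj (A : Finset I) (ζ : I → ℤˣ) : I → ℤˣ := fun i => if i ∈ A then ζ i else 1

/-- Functions on the block `B`, spread over `A`. -/
def spread (A B : Finset I) : (({x // x ∈ B} → ℤˣ) → ℝ) →ₗ[ℝ] ((I → ℤˣ) → ℝ) where
  toFun v η := if η ∈ spt (A ∪ B) then v (fun b => η b) else 0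
  map_add' v v' := by
    funext η
    simp only [Pi.add_apply]
    split_ifs <;> simp
  map_smul' c v := by
    funext η
    simp only [Pi.smul_apply, RingHom.id_apply, smul_eq_mul]
    split_ifs <;> simp

/-- Averages over `A`, restricted to `B`. -/
noncomputable def coll (A B : Finset I) : ((I → ℤˣ) → ℝ) →ₗ[ℝ] (({x // x ∈ B} → ℤˣ) → ℝ) where
  toFun u χ := avg fun ζ : I → ℤˣ => u (prj A ζ * ext1 χ)
  map_add' u u' := by
    funext χ
    simp only [Pi.add_apply]
    exact avg_add _ _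
  map_smul' c u := by
    funext χ
    simp only [Pi.smul_apply, RingHom.id_apply, smul_eq_mul]
    exact avg_mul_left _ _

theorem spread_apply (A B : Finset I) (v : ({x // x ∈ B} → ℤˣ) → ℝ) (η : I → ℤˣ) :
    spread A B v η = if η ∈ spt (A ∪ B) then v (fun b => η b) else 0 := rfl

theorem coll_apply (A B : Finset I) (u : (I → ℤˣ) → ℝ) (χ : {x // x ∈ B} → ℤˣ) :
    coll A B u χ = avg fun ζ : I → ℤˣ => u (prj A ζ * ext1 χ) := rfl

variable {A B : Finset I}

theorem prj_mul_ext1_mem (ζ : I → ℤˣ) (χ : {x // x ∈ B} → ℤˣ) :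
    prj A ζ * ext1 χ ∈ spt (A ∪ B) := by
  intro j hj
  rw [Finset.mem_union, not_or] at hj
  simp [prj, ext1, hj.1, hj.2]

theorem coll_spread (hAB : Disjoint A B) (v : ({x // x ∈ B} → ℤˣ) → ℝ) :
    coll A B (spread A B v) = v := by
  funext χ
  rw [coll_apply]
  have h1 : ∀ ζ : I → ℤˣ, spread A B v (prj A ζ * ext1 χ) = v χ := by
    intro ζ
    rw [spread_apply, if_pos (prj_mul_ext1_mem ζ χ)]
    congr 1
    funext b
    have hb : (b : I) ∉ A := fun h => (Finset.disjoint_left.mp hAB h) b.2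
    simp [prj, ext1, hb]
  simp only [h1]
  exact avg_const _

theorem prj_mul_of_mem (hAB : Disjoint A B) {η : I → ℤˣ} (hη : η ∈ spt (A ∪ B)) (ζ : I → ℤˣ) :
    prj A ζ * ext1 (B := B) (fun b => η b) = prj A (η * ζ) * η := by
  funext j
  simp only [Pi.mul_apply, prj, ext1]
  by_cases hA : j ∈ A
  · have hB : j ∉ B := Finset.disjoint_left.mp hAB hA
    have : η j * ζ j * η j = ζ j := by
      rw [mul_comm (η j) (ζ j), mul_assoc, Int.units_mul_self, mul_one]
    simp [hA, hB, this]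
  · by_cases hB : j ∈ B
    · simp [hA, hB]
    · have h1 : η j = 1 := hη j (by simp [hA, hB])
      simp [hA, hB, h1]

theorem spread_coll (hAB : Disjoint A B) (u : (I → ℤˣ) → ℝ) :
    spread A B (coll A B u) = fun η =>
      if η ∈ spt (A ∪ B) then (avg fun ζ : I → ℤˣ => u (prj A ζ * η)) else 0 := by
  funext η
  rw [spread_apply]
  split_ifs with hη
  · rw [coll_apply, ← avg_comp_equiv (Equiv.mulLeft η) (fun ζ : I → ℤˣ => u (prj A ζ * η))]
    refine avg_congr fun ζ => ?_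
    rw [prj_mul_of_mem hAB hη, Equiv.coe_mulLeft]
  · rfl

theorem spread_dl (hAB : Disjoint A B) :
    spread A B (dl (1:ℝ)) = fun η => if η ∈ spt A then (1:ℝ) else 0 := by
  funext η
  rw [spread_apply, dl]
  by_cases h : η ∈ spt A
  · have h1 : η ∈ spt (A ∪ B) := fun j hj => h j fun hA => hj (Finset.mem_union_left _ hA)
    have h2 : (fun b : {x // x ∈ B} => η b) = 1 := by
      funext b
      exact h b fun hA => (Finset.disjoint_left.mp hAB hA) b.2
    rw [if_pos h1, if_pos h, if_pos h2]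
  · rw [if_neg h]
    split_ifs with h1 h2
    · exact absurd (fun j hj => by
        by_cases hB : j ∈ B
        · exact congrFun h2 ⟨j, hB⟩
        · exact h1 j (by simp [hj, hB])) h
    · rfl
    · rfl

theorem spread_one :
    spread A B (fun _ => (1:ℝ)) = fun η => if η ∈ spt (A ∪ B) then (1:ℝ) else 0 := rfl

theorem spread_trans (v : ({x // x ∈ B} → ℤˣ) → ℝ) (g : {x // x ∈ B} → ℤˣ) :
    spread A B (fun χ => v (g * χ)) = fun η => spread A B v (ext1 g * η) := by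
  funext η
  rw [spread_apply, spread_apply]
  have h1 : ext1 g * η ∈ spt (A ∪ B) ↔ η ∈ spt (A ∪ B) := by
    apply Subgroup.mul_mem_cancel_left
    intro j hj
    rw [Finset.mem_union, not_or] at hj
    simp [ext1, hj.2]
  simp only [h1]
  split_ifs with h2
  · congr 1
    funext b
    simp [ext1]
  · rfl

theorem spread_modul (v : ({x // x ∈ B} → ℤˣ) → ℝ) (S : Finset {x // x ∈ B}) :
    spread A B (fun χ => walsh S χ • v χ) =
      fun η => walsh (S.map (Function.Embedding.subtype _)) η • spread A B v η := by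
  funext η
  rw [spread_apply, spread_apply]
  split_ifs with h2
  · congr 1
    rw [walsh, walsh, Finset.prod_map]
    rfl
  · rw [smul_zero]

variable {X : Type*} [NormedAddCommGroup X] [NormedSpace ℝ X] {J : ((I → ℤˣ) → ℝ) →ₗ[ℝ] X}

theorem Inv.block (hJ : Inv J) (A B : Finset I) : Inv (J ∘ₗ spread A B) := by
  refine ⟨fun g v => ?_, fun S v => ?_⟩
  · rw [LinearMap.comp_apply, LinearMap.comp_apply, spread_trans]
    exact hJ.trans _ _
  · rw [LinearMap.comp_apply, LinearMap.comp_apply, spread_modul]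
    exact hJ.modul _ _

theorem block_proj (hAB : Disjoint A B) (P : X →ₗ[ℝ] ((I → ℤˣ) → ℝ)) (hPJ : ∀ u, P (J u) = u)
    (v : ({x // x ∈ B} → ℤˣ) → ℝ) : (coll A B ∘ₗ P) ((J ∘ₗ spread A B) v) = v := by
  rw [LinearMap.comp_apply, LinearMap.comp_apply, hPJ, coll_spread hAB]

theorem block_norm (hJ : Inv J) (hAB : Disjoint A B) (P : X →ₗ[ℝ] ((I → ℤˣ) → ℝ))
    (hJP : ∀ x, ‖J (P x)‖ ≤ ‖x‖) (x : X) :
    ‖(J ∘ₗ spread A B) ((coll A B ∘ₗ P) x)‖ ≤ ‖x‖ := by
  rw [LinearMap.comp_apply, LinearMap.comp_apply, spread_coll hAB]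
  refine (hJ.indicator (spt (A ∪ B)) _).trans ?_
  exact (hJ.avg_trans (fun ζ : I → ℤˣ => prj A ζ) (P x)).trans (hJP x)

/-- The norm of the indicator function of the sign vectors supported by `A`. -/
noncomputable def nu (J : ((I → ℤˣ) → ℝ) →ₗ[ℝ] X) (A : Finset I) : ℝ :=
  ‖J (fun η => if η ∈ spt A then (1:ℝ) else 0)‖

theorem nu_empty : nu J ∅ = ‖J (dl (1:ℝ))‖ := by
  rw [nu]
  congr 2
  funext η
  rw [dl]
  have : η ∈ spt (∅ : Finset I) ↔ η = 1 := by
    constructor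
    · intro h
      funext j
      exact h j (by simp)
    · rintro rfl
      exact one_mem _
  simp only [this]

theorem nu_univ : nu J Finset.univ = ‖J (fun _ => (1:ℝ))‖ := by
  rw [nu]
  congr 2
  funext η
  rw [if_pos]
  intro j hj
  exact absurd (Finset.mem_univ j) hj

theorem nu_nonneg (A : Finset I) : 0 ≤ nu J A := norm_nonneg _

theorem nu_le_univ (hJ : Inv J) (A : Finset I) : nu J A ≤ nu J Finset.univ := by
  rw [nu_univ]
  exact hJ.indicator (spt A) (fun _ => 1)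

theorem norm_one_le (hJ : Inv J) : ‖J (fun _ => (1:ℝ))‖ ≤ 2 ^ Fintype.card I * ‖J (dl (1:ℝ))‖ := by
  have h1 : (fun _ : I → ℤˣ => (1:ℝ)) = ∑ x : I → ℤˣ, fun η => dl (1:ℝ) (x * η) := by
    funext η
    rw [Finset.sum_apply]
    simp only [dl]
    have h2 : ∀ x : I → ℤˣ, x * η = 1 ↔ x = η := by
      intro x
      constructor
      · intro h
        funext i
        have := congrFun h i
        simp only [Pi.mul_apply, Pi.one_apply] at this
        rw [← Int.units_inv_eq_self (η i)]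
        exact eq_inv_of_mul_eq_one_left this
      · rintro rfl
        funext i
        simp
    simp [h2]
  rw [h1, map_sum]
  calc ‖∑ x : I → ℤˣ, J (fun η => dl (1:ℝ) (x * η))‖
      ≤ ∑ x : I → ℤˣ, ‖J (fun η => dl (1:ℝ) (x * η))‖ := norm_sum_le _ _
    _ ≤ ∑ _x : I → ℤˣ, ‖J (dl (1:ℝ))‖ := Finset.sum_le_sum fun x _ => hJ.trans x _
    _ = 2 ^ Fintype.card I * ‖J (dl (1:ℝ))‖ := by
        rw [Finset.sum_const, Finset.card_univ, nsmul_eq_mul, Fintype.card_fun]
        simp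

theorem nu_block_dl (hAB : Disjoint A B) : ‖(J ∘ₗ spread A B) (dl (1:ℝ))‖ = nu J A := by
  rw [LinearMap.comp_apply, spread_dl hAB, nu]

theorem nu_block_one : ‖(J ∘ₗ spread A B) (fun _ => (1:ℝ))‖ = nu J (A ∪ B) := by
  rw [LinearMap.comp_apply, spread_one, nu]

theorem nu_union_le (hJ : Inv J) (hAB : Disjoint A B) :
    nu J (A ∪ B) ≤ 2 ^ #B * nu J A := by
  have h1 := norm_one_le (hJ.block A B)
  rwa [nu_block_dl hAB, nu_block_one, Fintype.card_coe] at h1

end block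

section chain

universe w

/-- Theorem 3: exponential separation of `‖1‖` from the trivial bounds. -/
theorem separation (q r C C' : ℝ) (hq : 2 ≤ q) (hr : 2 ≤ r) (hC : 0 ≤ C) (hC' : 0 ≤ C') :
    ∃ h : ℕ, 1 ≤ h ∧ ∀ (X : Type w) [NormedAddCommGroup X] [NormedSpace ℝ X],
      CotypeWith q C X → CotypeWith r C' (X →L[ℝ] ℝ) →
      ∀ (I : Type) [Fintype I] [DecidableEq I] (J : ((I → ℤˣ) → ℝ) →ₗ[ℝ] X)
        (P : X →ₗ[ℝ] ((I → ℤˣ) → ℝ)), Inv J → (∀ u, P (J u) = u) → (∀ x, ‖J (P x)‖ ≤ ‖x‖) →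
        2 ^ (Fintype.card I / h) * ‖J (dl (1:ℝ))‖ ≤ ‖J (fun _ => (1:ℝ))‖ ∧
        2 ^ (Fintype.card I / h) * ‖J (fun _ => (1:ℝ))‖ ≤
          2 ^ Fintype.card I * ‖J (dl (1:ℝ))‖ := by
  obtain ⟨L₁, hL₁, hM₁⟩ := scalar_main.{w} q C hq hC
  obtain ⟨L₂, hL₂, hM₂⟩ := scalar_main.{w} r C' hr hC'
  have hq0 : 0 < q := by linarith
  have hr0 : 0 < r := by linarith
  -- choice of the block length
  obtain ⟨h₁, hh₁⟩ := exists_nat_ge ((2 * (C' * L₁ + 1)) ^ r)
  obtain ⟨h₂, hh₂⟩ := exists_nat_ge ((2 * (C * L₂ + 1)) ^ q)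
  set h : ℕ := h₁ + h₂ + 1 with hh
  have hbr : 2 * (C' * L₁ + 1) ≤ (h:ℝ) ^ (1 / r) := by
    have h0 : 0 ≤ 2 * (C' * L₁ + 1) := by positivity
    calc 2 * (C' * L₁ + 1) = ((2 * (C' * L₁ + 1)) ^ r) ^ (1 / r) := by
          rw [← Real.rpow_mul h0, mul_one_div_cancel hr0.ne', Real.rpow_one]
      _ ≤ _ := by
          apply Real.rpow_le_rpow (by positivity) _ (by positivity)
          refine hh₁.trans ?_
          rw [hh]; push_cast
          have : (0:ℝ) ≤ h₂ := by positivity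
          linarith
  have hbq : 2 * (C * L₂ + 1) ≤ (h:ℝ) ^ (1 / q) := by
    have h0 : 0 ≤ 2 * (C * L₂ + 1) := by positivity
    calc 2 * (C * L₂ + 1) = ((2 * (C * L₂ + 1)) ^ q) ^ (1 / q) := by
          rw [← Real.rpow_mul h0, mul_one_div_cancel hq0.ne', Real.rpow_one]
      _ ≤ _ := by
          apply Real.rpow_le_rpow (by positivity) _ (by positivity)
          refine hh₂.trans ?_
          rw [hh]; push_cast
          have : (0:ℝ) ≤ h₁ := by positivity
          linarith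
  refine ⟨h, by omega, ?_⟩
  intro X _ _ hX hX' I _ _ J P hJ hPJ hJP
  -- one block
  have hstep : ∀ A B : Finset I, Disjoint A B → #B = h →
      2 * nu J A ≤ nu J (A ∪ B) ∧ 2 * nu J (A ∪ B) ≤ 2 ^ h * nu J A := by
    intro A B hAB hB
    have hcard : Fintype.card {x // x ∈ B} = h := by rw [Fintype.card_coe, hB]
    have h1 := card_le hr hC' hL₁ hM₁ hX hX' (hJ.block A B) (coll A B ∘ₗ P)
      (block_proj hAB P hPJ) (block_norm hJ hAB P hJP)
    have h2 := card_le' hq hC hL₂ hM₂ hX hX' (hJ.block A B) (coll A B ∘ₗ P)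
      (block_proj hAB P hPJ) (block_norm hJ hAB P hJP)
    rw [nu_block_dl hAB, nu_block_one, hcard] at h1 h2
    have n1 := nu_nonneg (J := J) A
    have n2 := nu_nonneg (J := J) (A ∪ B)
    constructor
    · have h3 : 2 * (C' * L₁ + 1) * nu J A ≤ (C' * L₁ + 1) * nu J (A ∪ B) := by
        calc 2 * (C' * L₁ + 1) * nu J A ≤ (h:ℝ) ^ (1 / r) * nu J A :=
              mul_le_mul_of_nonneg_right hbr n1
          _ ≤ C' * L₁ * nu J (A ∪ B) := h1
          _ ≤ _ := by nlinarith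
      have h4 : 0 < C' * L₁ + 1 := by positivity
      have h5 : (C' * L₁ + 1) * (2 * nu J A) ≤ (C' * L₁ + 1) * nu J (A ∪ B) := by linarith
      exact le_of_mul_le_mul_left h5 h4
    · have n3 : 0 ≤ 2 ^ h * nu J A := by positivity
      have h3 : 2 * (C * L₂ + 1) * nu J (A ∪ B) ≤ (C * L₂ + 1) * (2 ^ h * nu J A) := by
        calc 2 * (C * L₂ + 1) * nu J (A ∪ B) ≤ (h:ℝ) ^ (1 / q) * nu J (A ∪ B) :=
              mul_le_mul_of_nonneg_right hbq n2
          _ ≤ C * (L₂ * (2 ^ h * nu J A)) := h2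
          _ ≤ _ := by nlinarith
      have h4 : 0 < C * L₂ + 1 := by positivity
      have h5 : (C * L₂ + 1) * (2 * nu J (A ∪ B)) ≤ (C * L₂ + 1) * (2 ^ h * nu J A) := by
        linarith
      exact le_of_mul_le_mul_left h5 h4
  -- chains
  have hchain : ∀ k : ℕ, ∀ A : Finset I, #A = k * h →
      2 ^ k * nu J ∅ ≤ nu J A ∧ 2 ^ k * nu J A ≤ 2 ^ (k * h) * nu J ∅ := by
    intro k
    induction k with
    | zero =>
      intro A hA
      have : A = ∅ := by
        rw [zero_mul] at hA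
        exact Finset.card_eq_zero.mp hA
      subst this
      simp
    | succ k ih =>
      intro A hA
      obtain ⟨A', hA'A, hA'⟩ := Finset.exists_subset_card_eq (s := A) (n := k * h) (by
        rw [hA]; exact Nat.mul_le_mul_right _ (Nat.le_succ k))
      have hd : Disjoint A' (A \ A') := Finset.disjoint_sdiff
      have hu : A' ∪ (A \ A') = A := Finset.union_sdiff_of_subset hA'A
      have hc : #(A \ A') = h := by
        rw [Finset.card_sdiff_of_subset hA'A, hA, hA']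
        have : (k + 1) * h = k * h + h := by ring
        omega
      obtain ⟨s1, s2⟩ := hstep A' (A \ A') hd hc
      rw [hu] at s1 s2
      obtain ⟨i1, i2⟩ := ih A' hA'
      constructor
      · calc 2 ^ (k + 1) * nu J ∅ = 2 * (2 ^ k * nu J ∅) := by ring
          _ ≤ 2 * nu J A' := by linarith
          _ ≤ nu J A := s1
      · calc 2 ^ (k + 1) * nu J A = 2 ^ k * (2 * nu J A) := by ring
          _ ≤ 2 ^ k * (2 ^ h * nu J A') := mul_le_mul_of_nonneg_left s2 (by positivity)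
          _ = 2 ^ h * (2 ^ k * nu J A') := by ring
          _ ≤ 2 ^ h * (2 ^ (k * h) * nu J ∅) := mul_le_mul_of_nonneg_left i2 (by positivity)
          _ = 2 ^ ((k + 1) * h) * nu J ∅ := by ring
  set n := Fintype.card I with hn
  obtain ⟨A, -, hA⟩ := Finset.exists_subset_card_eq (s := (Finset.univ : Finset I))
    (n := n / h * h) (by rw [Finset.card_univ]; exact Nat.div_mul_le_self n h)
  obtain ⟨c1, c2⟩ := hchain (n / h) A hA
  rw [← nu_empty, ← nu_univ]
  constructor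
  · exact c1.trans (nu_le_univ hJ A)
  · have hd : Disjoint A (Finset.univ \ A) := Finset.disjoint_sdiff
    have hu : A ∪ (Finset.univ \ A) = Finset.univ :=
      Finset.union_sdiff_of_subset (Finset.subset_univ A)
    have h1 := nu_union_le hJ hd
    have hc : #(Finset.univ \ A) = n - n / h * h := by
      rw [Finset.card_sdiff_of_subset (Finset.subset_univ A), Finset.card_univ, hA]
    rw [hu, hc] at h1
    have hle : n / h * h ≤ n := Nat.div_mul_le_self n h
    calc 2 ^ (n / h) * nu J Finset.univ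
        ≤ 2 ^ (n / h) * (2 ^ (n - n / h * h) * nu J A) :=
          mul_le_mul_of_nonneg_left h1 (by positivity)
      _ = 2 ^ (n - n / h * h) * (2 ^ (n / h) * nu J A) := by ring
      _ ≤ 2 ^ (n - n / h * h) * (2 ^ (n / h * h) * nu J ∅) :=
          mul_le_mul_of_nonneg_left c2 (by positivity)
      _ = 2 ^ n * nu J ∅ := by
          rw [← mul_assoc, ← pow_add, Nat.sub_add_cancel hle]

end chain

end Vale.Agent.P111.HM
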