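import Vale.Agent.P111.QL.Defs

/-! Definitions used in the statement of the hand-in `HeisenbergNorms`. -/

namespace Vale.Agent.P111.HN

open Vale.Agent.P111

/-- The Walsh functions `w_S` on the discrete cube. -/
def walsh {I : Type*} (S : Finset I) (ω : I → ℤˣ) : ℝ := ∏ i ∈ S, sg (ω i)

/-- The Walsh coefficient `E w_S F`. -/
noncomputable def coef {I : Type*} [Fintype I] [DecidableEq I] {E : Type*} [AddCommGroup E]
    [Module ℝ E] (S : Finset I) (F : (I → ℤˣ) → E) : E :=
  avg fun ω => walsh S ω • F ω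

/-- The function with value `z` at the point `(1, …, 1)` and `0` elsewhere. -/
def pm {Z : Type*} [Zero Z] {I : Type} [Fintype I] [DecidableEq I] (z : Z) : (I → ℤˣ) → Z :=
  fun η => if η = 1 then z else 0

/-- `‖J ·‖` is invariant under translations and under multiplication by Walsh functions. -/
structure HeisInv {Z X : Type*} [NormedAddCommGroup Z] [NormedSpace ℝ Z]
    [NormedAddCommGroup X] [NormedSpace ℝ X] {I : Type} [Fintype I] [DecidableEq I]
    (J : ((I → ℤˣ) → Z) →ₗ[ℝ] X) : Prop where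
  trans : ∀ (g : I → ℤˣ) (u : (I → ℤˣ) → Z), ‖J (fun η => u (g * η))‖ ≤ ‖J u‖
  modul : ∀ (S : Finset I) (u : (I → ℤˣ) → Z), ‖J (fun η => walsh S η • u η)‖ ≤ ‖J u‖

/-- Moreover the norm of a point mass is equivalent to the norm of its value. -/
structure Heis (B : ℝ) {Z X : Type*} [NormedAddCommGroup Z] [NormedSpace ℝ Z]
    [NormedAddCommGroup X] [NormedSpace ℝ X] {I : Type} [Fintype I] [DecidableEq I]
    (J : ((I → ℤˣ) → Z) →ₗ[ℝ] X) : Prop extends HeisInv J where
  lower : ∀ z : Z, ‖z‖ ≤ ‖J (pm z)‖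
  upper : ∀ z : Z, ‖J (pm z)‖ ≤ B * ‖z‖

end Vale.Agent.P111.HN
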